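import Mathlib

open scoped RealInnerProductSpace

set_option linter.unusedSectionVars false

namespace Vale.Agent.P226

variable {E : Type*} [NormedAddCommGroup E] [InnerProductSpace ℝ E]
  {ι : Type*} [Fintype ι] [DecidableEq ι]

/-- vectors with pairwise negative inner products: every linear relation is constant -/
lemma coeff_const {u : ι → E} (hneg : ∀ i j, i ≠ j → ⟪u i, u j⟫ < 0) (hsum : ∑ i, u i = 0)
    (a : ι → ℝ) (h : ∑ l, a l • u l = 0) (i j : ι) : a i = a j := by
  obtain ⟨m, _, hm⟩ := Finset.exists_min_image Finset.univ a ⟨i, Finset.mem_univ i⟩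
  have h1 : ∑ l, (a l - a m) • u l = 0 := by
    simp_rw [sub_smul]
    rw [Finset.sum_sub_distrib, h, ← Finset.smul_sum, hsum]
    simp
  have h2 : ∑ l, (a l - a m) * ⟪u l, u m⟫ = 0 := by
    have := congrArg (fun v => ⟪v, u m⟫) h1
    simpa [sum_inner, inner_smul_left] using this
  have h3 : ∀ l ∈ Finset.univ, 0 ≤ -((a l - a m) * ⟪u l, u m⟫) := by
    intro l _
    by_cases hl : l = m
    · subst hl; simp
    · have := hneg l m hl
      have h4 := hm l (Finset.mem_univ l)
      nlinarith
  have h5 : ∀ l ∈ Finset.univ, -((a l - a m) * ⟪u l, u m⟫) = 0 := by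
    rw [← Finset.sum_eq_zero_iff_of_nonneg h3, Finset.sum_neg_distrib, h2, neg_zero]
  have h6 : ∀ l, a l = a m := by
    intro l
    by_cases hl : l = m
    · rw [hl]
    · have h7 := h5 l (Finset.mem_univ l)
      have h8 := hneg l m hl
      rw [neg_eq_zero, mul_eq_zero] at h7
      rcases h7 with h7 | h7
      · linarith
      · exact absurd h7 h8.ne
  rw [h6 i, h6 j]

lemma exists_dual [FiniteDimensional ℝ E] {u : ι → E}
    (hneg : ∀ i j, i ≠ j → ⟪u i, u j⟫ < 0) (hsum : ∑ i, u i = 0) {i j : ι} (hij : j ≠ i) :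
    ∃ a : E, ∀ l, ⟪u i - u l, a⟫ = if l = j then 1 else 0 := by
  let T : E →ₗ[ℝ] ({l // l ≠ i} → ℝ) :=
    { toFun := fun a l => ⟪u i - u l, a⟫
      map_add' := fun a b => by ext l; simp [inner_add_right]
      map_smul' := fun c a => by ext l; simp [inner_smul_right] }
  have hT : LinearMap.range T = ⊤ := by
    by_contra hcon
    obtain ⟨f, hf0, hf⟩ := Submodule.exists_le_ker_of_lt_top (LinearMap.range T)
      (lt_top_iff_ne_top.mpr hcon)
    set c : {l // l ≠ i} → ℝ := fun l => f (Pi.single l 1) with hc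
    have hfx : ∀ x : {l // l ≠ i} → ℝ, f x = ∑ l, x l * c l := by
      intro x
      conv_lhs => rw [← Finset.univ_sum_single x]
      rw [map_sum]
      apply Finset.sum_congr rfl
      intro l _
      have : (Pi.single l (x l) : {l // l ≠ i} → ℝ) = x l • Pi.single l 1 := by
        ext l'
        by_cases h : l' = l
        · subst h; simp
        · simp [Pi.single_eq_of_ne h]
      rw [this, map_smul, smul_eq_mul]
    have h1 : ∀ a : E, ∑ l : {l // l ≠ i}, ⟪u i - u l, a⟫ * c l = 0 := by
      intro a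
      have h2 : T a ∈ LinearMap.ker f := hf (LinearMap.mem_range_self T a)
      rw [LinearMap.mem_ker, hfx] at h2
      exact h2
    have h3 : ∑ l : {l // l ≠ i}, c l • (u i - u l) = 0 := by
      apply ext_inner_right ℝ
      intro a
      rw [inner_zero_left, sum_inner]
      rw [← h1 a]
      apply Finset.sum_congr rfl
      intro l _
      rw [inner_smul_left]; simp [mul_comm]
    let b : ι → ℝ := fun l => if h : l ≠ i then -(c ⟨l, h⟩) else ∑ l, c l
    have hbi : b i = ∑ l, c l := by simp [b]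
    have hbl : ∀ l : {l // l ≠ i}, b l = -(c l) := by
      intro l
      simp [b, l.2]
    have hsplit : ∀ (g : ι → E), ∑ l, g l = g i + ∑ l : {l // l ≠ i}, g l := by
      intro g
      rw [← Finset.add_sum_erase Finset.univ g (Finset.mem_univ i)]
      congr 1
      rw [← Finset.sum_subtype (Finset.univ.erase i) (fun x => by simp) g]
    have h4 : ∑ l, b l • u l = 0 := by
      rw [hsplit, hbi]
      simp_rw [hbl]
      rw [Finset.sum_smul, ← Finset.sum_add_distrib, ← h3]
      apply Finset.sum_congr rfl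
      intro l _
      rw [smul_sub, neg_smul, sub_eq_add_neg]
    have h5 : ∀ l : {l // l ≠ i}, c l = -(∑ l, c l) := by
      intro l
      have := coeff_const hneg hsum b h4 l i
      rw [hbl, hbi] at this
      linarith
    have h6 : ∑ l, c l = 0 := by
      have h7 : ∑ l, c l = ∑ l : {l // l ≠ i}, -(∑ l, c l) :=
        Finset.sum_congr rfl (fun l _ => h5 l)
      rw [Finset.sum_const, nsmul_eq_mul] at h7
      have h8 : (0 : ℝ) ≤ (Finset.univ : Finset {l // l ≠ i}).card := Nat.cast_nonneg _
      nlinarith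
    apply hf0
    refine LinearMap.ext fun x => ?_
    rw [hfx, LinearMap.zero_apply]
    apply Finset.sum_eq_zero
    intro l _
    rw [h5 l, h6]; simp
  have hsurj : Function.Surjective T := LinearMap.range_eq_top.mp hT
  obtain ⟨a, ha⟩ := hsurj (Pi.single ⟨j, hij⟩ 1)
  refine ⟨a, fun l => ?_⟩
  by_cases hl : l = i
  · subst hl
    simp [hij.symm]
  · have h1 := congrFun ha ⟨l, hl⟩
    have h2 : T a ⟨l, hl⟩ = ⟪u i - u l, a⟫ := rfl
    rw [← h2, h1]
    by_cases hlj : l = j
    · subst hlj; simp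
    · rw [Pi.single_eq_of_ne, if_neg hlj]
      intro h
      exact hlj (congrArg Subtype.val h)

lemma sum_sub_eq {u : ι → E} (hsum : ∑ i, u i = 0) (i : ι) :
    ∑ l, (u i - u l) = (Fintype.card ι : ℝ) • u i := by
  rw [Finset.sum_sub_distrib, hsum, sub_zero, Finset.sum_const, Finset.card_univ,
    ← Nat.cast_smul_eq_nsmul ℝ]

lemma inner_dual {u : ι → E} (hsum : ∑ i, u i = 0) {i j : ι} {a : E}
    (ha : ∀ l, ⟪u i - u l, a⟫ = if l = j then 1 else 0) :
    (Fintype.card ι : ℝ) * ⟪u i, a⟫ = 1 := by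
  have h1 : ⟪∑ l, (u i - u l), a⟫ = 1 := by
    rw [sum_inner]
    simp_rw [ha]
    simp
  rw [sum_sub_eq hsum, inner_smul_left] at h1
  simpa using h1

lemma sum_inner_erase {u : ι → E} (hsum : ∑ i, u i = 0) (i : ι) :
    ∑ l ∈ Finset.univ.erase i, (-⟪u i, u l⟫) = ‖u i‖ ^ 2 := by
  have h1 : ⟪u i, ∑ l, u l⟫ = 0 := by rw [hsum, inner_zero_right]
  rw [inner_sum, ← Finset.add_sum_erase Finset.univ _ (Finset.mem_univ i),
    real_inner_self_eq_norm_sq] at h1
  rw [Finset.sum_neg_distrib]
  linarith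

end Vale.Agent.P226
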