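import Mathlib

open MeasureTheory ProbabilityTheory Set Filter
open scoped Topology ENNReal NNReal

set_option linter.unusedSectionVars false

namespace Vale.Agent.P226

/-- The standard normal density. -/
noncomputable def phi (s : ℝ) : ℝ := gaussianPDFReal 0 1 s

lemma phi_eq (s : ℝ) : phi s = (Real.sqrt (2 * Real.pi))⁻¹ * Real.exp (-(s ^ 2) / 2) := by
  simp [phi, gaussianPDFReal]

lemma phi_pos (s : ℝ) : 0 < phi s := by
  rw [phi_eq]; positivity

lemma phi_nonneg (s : ℝ) : 0 ≤ phi s := (phi_pos s).le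

lemma continuous_phi : Continuous phi := by
  have : phi = fun s => (Real.sqrt (2 * Real.pi))⁻¹ * Real.exp (-(s ^ 2) / 2) := by
    ext s; exact phi_eq s
  rw [this]; fun_prop

lemma hasDerivAt_phi (s : ℝ) : HasDerivAt phi (-(s * phi s)) s := by
  have h : phi = fun s => (Real.sqrt (2 * Real.pi))⁻¹ * Real.exp (-(s ^ 2) / 2) := by
    ext s; exact phi_eq s
  rw [h]
  have h0 : HasDerivAt (fun s : ℝ => s ^ 2) (2 * s) s := by simpa using hasDerivAt_pow 2 s
  have h1 : HasDerivAt (fun s : ℝ => -(s ^ 2) / 2) (-s) s :=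
    ((h0.neg).div_const 2).congr_deriv (by ring)
  exact ((h1.exp).const_mul ((Real.sqrt (2 * Real.pi))⁻¹)).congr_deriv (by ring)

lemma sqrt_two_pi_pos : 0 < Real.sqrt (2 * Real.pi) := by positivity

lemma integral_gauss (f : ℝ → ℝ) :
    ∫ s, f s ∂(gaussianReal 0 1) = ∫ s, phi s * f s := by
  rw [integral_gaussianReal_eq_integral_smul (by norm_num)]
  rfl

lemma setIntegral_gauss {A : Set ℝ} (hA : MeasurableSet A) (f : ℝ → ℝ) :
    ∫ s in A, f s ∂(gaussianReal 0 1) = ∫ s in A, phi s * f s := by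
  rw [← integral_indicator hA, integral_gauss, ← integral_indicator hA]
  congr 1
  ext s
  by_cases hs : s ∈ A <;> simp [hs]

lemma integrable_pow_gauss (n : ℕ) : Integrable (fun s : ℝ => s ^ n) (gaussianReal 0 1) := by
  rcases Nat.eq_zero_or_pos n with h | h
  · subst h; simp
  · have := (memLp_id_gaussianReal (μ := 0) (v := 1) (p := (n : ℝ≥0)))
    have h2 := this.integrable_norm_pow (by omega)
    refine Integrable.mono' h2 (by fun_prop) ?_
    filter_upwards with s
    simp

lemma integrable_phi_mul_pow (n : ℕ) : Integrable (fun s : ℝ => phi s * s ^ n) := by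
  have h := integrable_pow_gauss n
  rw [gaussianReal_of_var_ne_zero _ (by norm_num)] at h
  rw [integrable_withDensity_iff_integrable_smul'] at h
  · refine h.congr ?_
    filter_upwards with s
    simp [phi, gaussianPDF, gaussianPDFReal_nonneg]
  · exact measurable_gaussianPDF 0 1
  · filter_upwards with s
    exact gaussianPDF_lt_top

lemma tendsto_pow_mul_phi_atTop (n : ℕ) : Tendsto (fun s : ℝ => s ^ n * phi s) atTop (𝓝 0) := by
  have h := tendsto_rpow_abs_mul_exp_neg_mul_sq_cocompact (a := 1 / 2) (by norm_num) (n : ℝ)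
  have h2 : Tendsto (fun s : ℝ => |s| ^ (n : ℝ) * Real.exp (-(1 / 2) * s ^ 2)) atTop (𝓝 0) :=
    h.mono_left atTop_le_cocompact
  have h3 := h2.const_mul ((Real.sqrt (2 * Real.pi))⁻¹)
  rw [mul_zero] at h3
  refine h3.congr' ?_
  filter_upwards [eventually_ge_atTop (0 : ℝ)] with s hs
  rw [phi_eq, abs_of_nonneg hs, Real.rpow_natCast]
  have : -(1 / 2) * s ^ 2 = -(s ^ 2) / 2 := by ring
  rw [this]; ring

lemma tendsto_pow_mul_phi_atBot (n : ℕ) : Tendsto (fun s : ℝ => s ^ n * phi s) atBot (𝓝 0) := by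
  have h := tendsto_rpow_abs_mul_exp_neg_mul_sq_cocompact (a := 1 / 2) (by norm_num) (n : ℝ)
  have h2 : Tendsto (fun s : ℝ => |s| ^ (n : ℝ) * Real.exp (-(1 / 2) * s ^ 2)) atBot (𝓝 0) :=
    h.mono_left atBot_le_cocompact
  have h3 := h2.const_mul ((Real.sqrt (2 * Real.pi))⁻¹)
  rw [mul_zero] at h3
  rw [tendsto_zero_iff_abs_tendsto_zero]
  refine h3.congr' ?_
  filter_upwards with s
  simp only [Function.comp]
  rw [phi_eq, abs_mul, abs_mul, Real.rpow_natCast, abs_pow, abs_of_pos (Real.exp_pos _),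
    abs_of_pos (inv_pos.mpr sqrt_two_pi_pos)]
  have : -(1 / 2) * s ^ 2 = -(s ^ 2) / 2 := by ring
  rw [this]; ring

/-- recursion: integration by parts on a half line -/
lemma integral_Ioi_rec (n : ℕ) (N : ℝ) :
    ∫ s in Ioi N, (phi s * s ^ (n + 2) - (n + 1) * (phi s * s ^ n)) = N ^ (n + 1) * phi N := by
  have hd : ∀ s : ℝ, HasDerivAt (fun s : ℝ => -(s ^ (n + 1) * phi s))
      (phi s * s ^ (n + 2) - (n + 1) * (phi s * s ^ n)) s := by
    intro s
    have h1 := ((hasDerivAt_pow (n + 1) s).mul (hasDerivAt_phi s)).neg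
    refine h1.congr_deriv ?_
    simp only [Nat.add_sub_cancel]
    push_cast
    ring
  have h := integral_Ioi_of_hasDerivAt_of_tendsto' (a := N) (m := 0)
    (fun s _ => hd s) ?_ ?_
  · rw [h]; simp
  · exact ((integrable_phi_mul_pow (n + 2)).sub
      ((integrable_phi_mul_pow n).const_mul _)).integrableOn
  · have := (tendsto_pow_mul_phi_atTop (n + 1)).neg
    simpa using this

lemma integral_rec (n : ℕ) :
    ∫ s, phi s * s ^ (n + 2) = (n + 1) * ∫ s, phi s * s ^ n := by
  have hd : ∀ s : ℝ, HasDerivAt (fun s : ℝ => -(s ^ (n + 1) * phi s))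
      (phi s * s ^ (n + 2) - (n + 1) * (phi s * s ^ n)) s := by
    intro s
    have h1 := ((hasDerivAt_pow (n + 1) s).mul (hasDerivAt_phi s)).neg
    refine h1.congr_deriv ?_
    simp only [Nat.add_sub_cancel]
    push_cast
    ring
  have h := integral_of_hasDerivAt_of_tendsto (m := 0) (n := 0) hd ?_ ?_ ?_
  · rw [integral_sub (integrable_phi_mul_pow (n + 2)) ((integrable_phi_mul_pow n).const_mul _),
      integral_const_mul] at h
    linarith
  · exact ((integrable_phi_mul_pow (n + 2)).sub ((integrable_phi_mul_pow n).const_mul _))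
  · have := (tendsto_pow_mul_phi_atBot (n + 1)).neg
    simpa using this
  · have := (tendsto_pow_mul_phi_atTop (n + 1)).neg
    simpa using this

lemma integral_phi : ∫ s, phi s = 1 := integral_gaussianPDFReal_eq_one 0 (by norm_num)

lemma moment_eight : ∫ s, s ^ 8 ∂(gaussianReal 0 1) = 105 := by
  rw [integral_gauss]
  have h0 : ∫ s, phi s * s ^ 0 = 1 := by simpa using integral_phi
  have h2 := integral_rec 0
  have h4 := integral_rec 2
  have h6 := integral_rec 4
  have h8 := integral_rec 6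
  norm_num at h0 h2 h4 h6 h8
  rw [h8, h6, h4, h2, h0]; norm_num

lemma integral_Ioi_phi_zero : ∫ s in Ioi (0 : ℝ), phi s = 1 / 2 := by
  have h : phi = fun s => (Real.sqrt (2 * Real.pi))⁻¹ * Real.exp (-(1 / 2) * s ^ 2) := by
    ext s; rw [phi_eq]; congr 2; ring
  rw [h, integral_const_mul, integral_gaussian_Ioi]
  have h2 : Real.pi / (1 / 2) = 2 * Real.pi := by ring
  rw [h2]
  field_simp

lemma half_moment_rec (n : ℕ) :
    ∫ s in Ioi (0 : ℝ), phi s * s ^ (n + 2) = (n + 1) * ∫ s in Ioi (0 : ℝ), phi s * s ^ n := by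
  have h := integral_Ioi_rec n 0
  rw [integral_sub (integrable_phi_mul_pow (n + 2)).integrableOn
    ((integrable_phi_mul_pow n).const_mul _).integrableOn, integral_const_mul] at h
  simp at h
  linarith

lemma half_moments :
    (∫ s in Ioi (0 : ℝ), phi s * s ^ 2 = 1 / 2) ∧ (∫ s in Ioi (0 : ℝ), phi s * s ^ 4 = 3 / 2) ∧
    (∫ s in Ioi (0 : ℝ), phi s * s ^ 8 = 105 / 2) := by
  have h0 : ∫ s in Ioi (0 : ℝ), phi s * s ^ 0 = 1 / 2 := by simpa using integral_Ioi_phi_zero
  have h2 := half_moment_rec 0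
  have h4 := half_moment_rec 2
  have h6 := half_moment_rec 4
  have h8 := half_moment_rec 6
  norm_num at h0 h2 h4 h6 h8
  refine ⟨?_, ?_, ?_⟩
  · rw [h2, h0]
  · rw [h4, h2, h0]; norm_num
  · rw [h8, h6, h4, h2, h0]; norm_num

lemma integral_Ioi_mul_phi (N : ℝ) : ∫ s in Ioi N, phi s * s = phi N := by
  have hd : ∀ s : ℝ, HasDerivAt (fun s : ℝ => -(phi s)) (phi s * s) s := by
    intro s
    exact ((hasDerivAt_phi s).neg).congr_deriv (by ring)
  have h := integral_Ioi_of_hasDerivAt_of_tendsto' (a := N) (m := 0)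
    (fun s _ => hd s) ?_ ?_
  · rw [h]; simp
  · simpa using (integrable_phi_mul_pow 1).integrableOn (s := Ioi N)
  · have := (tendsto_pow_mul_phi_atTop 0).neg
    simpa using this


lemma phi_zero : phi 0 = (Real.sqrt (2 * Real.pi))⁻¹ := by
  rw [phi_eq]; simp

lemma phi_le_zero (s : ℝ) : phi s ≤ phi 0 := by
  rw [phi_zero, phi_eq]
  have h1 : Real.exp (-(s ^ 2) / 2) ≤ 1 := by
    rw [Real.exp_le_one_iff]; nlinarith [sq_nonneg s]
  have h2 : 0 ≤ (Real.sqrt (2 * Real.pi))⁻¹ := by positivity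
  nlinarith

lemma two_le_sqrt : (2 : ℝ) ≤ Real.sqrt (2 * Real.pi) := by
  apply Real.le_sqrt_of_sq_le
  nlinarith [Real.pi_gt_three]

lemma phi_zero_le_half : phi 0 ≤ 1 / 2 := by
  rw [phi_zero]
  rw [inv_le_comm₀ sqrt_two_pi_pos (by norm_num)]
  simpa using two_le_sqrt

lemma mul_phi_bound (s : ℝ) : (1 + s ^ 2) * phi s ≤ 1 := by
  have h1 : phi s = phi 0 * Real.exp (-(s ^ 2) / 2) := by rw [phi_zero, phi_eq]
  have h2 : 1 + s ^ 2 / 2 ≤ Real.exp (s ^ 2 / 2) := by
    have := Real.add_one_le_exp (s ^ 2 / 2); linarith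
  have h3 : Real.exp (-(s ^ 2) / 2) * Real.exp (s ^ 2 / 2) = 1 := by
    rw [← Real.exp_add]; simp [neg_div]
  have h4 : 0 < Real.exp (-(s ^ 2) / 2) := Real.exp_pos _
  have h5 : (1 + s ^ 2) * Real.exp (-(s ^ 2) / 2) ≤ 2 := by
    have : (1 + s ^ 2) ≤ 2 * Real.exp (s ^ 2 / 2) := by nlinarith
    calc (1 + s ^ 2) * Real.exp (-(s ^ 2) / 2)
        ≤ (2 * Real.exp (s ^ 2 / 2)) * Real.exp (-(s ^ 2) / 2) :=
          mul_le_mul_of_nonneg_right this h4.le
      _ = 2 * (Real.exp (-(s ^ 2) / 2) * Real.exp (s ^ 2 / 2)) := by ring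
      _ = 2 := by rw [h3]; ring
  rw [h1]
  have h6 := phi_zero_le_half
  have h7 := phi_nonneg 0
  have h8 : 0 ≤ (1 + s ^ 2) * Real.exp (-(s ^ 2) / 2) := by positivity
  nlinarith

lemma abs_sub_phi (s t : ℝ) : |phi s - phi t| ≤ |s - t| := by
  have h := convex_univ.norm_image_sub_le_of_norm_hasDerivWithin_le (f := phi)
    (f' := fun s => -(s * phi s)) (C := 1) (s := univ) (x := t) (y := s)
    (fun x _ => (hasDerivAt_phi x).hasDerivWithinAt) ?_ (mem_univ _) (mem_univ _)
  · simpa using h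
  · intro x _
    rw [Real.norm_eq_abs, abs_neg, abs_mul, abs_of_nonneg (phi_nonneg x)]
    have h1 := mul_phi_bound x
    have h2 : |x| ≤ 1 + x ^ 2 := by
      rw [abs_le]; constructor <;> nlinarith [sq_nonneg (x + 1), sq_nonneg (x - 1)]
    nlinarith [phi_nonneg x]

lemma hasDerivAt_mul_phi (s : ℝ) :
    HasDerivAt (fun s => s * phi s) ((1 - s ^ 2) * phi s) s := by
  refine ((hasDerivAt_id s).mul (hasDerivAt_phi s)).congr_deriv ?_
  simp; ring

lemma abs_sub_mul_phi (s t : ℝ) : |s * phi s - t * phi t| ≤ |s - t| := by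
  have h := convex_univ.norm_image_sub_le_of_norm_hasDerivWithin_le (f := fun s => s * phi s)
    (f' := fun s => (1 - s ^ 2) * phi s) (C := 1) (s := univ) (x := t) (y := s)
    (fun x _ => (hasDerivAt_mul_phi x).hasDerivWithinAt) ?_ (mem_univ _) (mem_univ _)
  · simpa using h
  · intro x _
    rw [Real.norm_eq_abs, abs_mul, abs_of_nonneg (phi_nonneg x)]
    have h1 := mul_phi_bound x
    have h2 : |1 - x ^ 2| ≤ 1 + x ^ 2 := by
      rw [abs_le]; constructor <;> nlinarith [sq_nonneg x]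
    nlinarith [phi_nonneg x]

lemma integrable_pow_gauss' (n : ℕ) : Integrable (fun s : ℝ => s ^ n) (gaussianReal 0 1) :=
  integrable_pow_gauss n

lemma integral_Ici_id (N : ℝ) : ∫ s in Ici N, s ∂(gaussianReal 0 1) = phi N := by
  rw [setIntegral_gauss measurableSet_Ici, integral_Ici_eq_integral_Ioi, integral_Ioi_mul_phi]

lemma integral_Ici_sq_sub_one (N : ℝ) :
    ∫ s in Ici N, (s ^ 2 - 1) ∂(gaussianReal 0 1) = N * phi N := by
  rw [setIntegral_gauss measurableSet_Ici, integral_Ici_eq_integral_Ioi]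
  have h := integral_Ioi_rec 0 N
  simp only [pow_zero, mul_one, zero_add, pow_one, Nat.cast_zero, one_mul] at h
  rw [← h]
  congr 1
  ext s; ring

lemma real_Ici (N : ℝ) : (gaussianReal 0 1).real (Ici N) = ∫ s in Ioi N, phi s := by
  have : (gaussianReal 0 1).real (Ici N) = ∫ s in Ici N, (1 : ℝ) ∂(gaussianReal 0 1) := by simp
  rw [this, setIntegral_gauss measurableSet_Ici, integral_Ici_eq_integral_Ioi]
  simp

lemma integral_Ici_sq (N : ℝ) :
    ∫ s in Ici N, s ^ 2 ∂(gaussianReal 0 1) = ∫ s in Ioi N, phi s * s ^ 2 := by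
  rw [setIntegral_gauss measurableSet_Ici, integral_Ici_eq_integral_Ioi]

/-- sign change principle -/
lemma tail_nonneg (f : ℝ → ℝ) (c : ℝ) (hf : IntegrableOn f (Ioi 0)) (h0 : 0 ≤ ∫ s in Ioi 0, f s)
    (h1 : ∀ s, 0 ≤ s → s ≤ c → f s ≤ 0) (h2 : ∀ s, c ≤ s → 0 ≤ f s) (N : ℝ) (hN : 0 ≤ N) :
    0 ≤ ∫ s in Ioi N, f s := by
  by_cases hc : c ≤ N
  · apply setIntegral_nonneg measurableSet_Ioi
    intro s hs
    exact h2 s (hc.trans (le_of_lt hs))
  · push Not at hc
    have hsplit : ∫ s in Ioi 0, f s = (∫ s in Ioc 0 N, f s) + ∫ s in Ioi N, f s := by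
      rw [← setIntegral_union (Ioc_disjoint_Ioi le_rfl) measurableSet_Ioi
        (hf.mono_set Ioc_subset_Ioi_self) (hf.mono_set (Ioi_subset_Ioi hN)),
        Ioc_union_Ioi_eq_Ioi hN]
    have hneg : ∫ s in Ioc 0 N, f s ≤ 0 := by
      apply setIntegral_nonpos measurableSet_Ioc
      intro s hs
      exact h1 s hs.1.le (hs.2.trans hc.le)
    linarith

lemma sqrt_two_div_pi_mul : Real.sqrt (2 / Real.pi) * (1 / 2) = phi 0 := by
  rw [phi_zero]
  have hpi := Real.pi_pos
  have h1 : Real.sqrt (2 / Real.pi) * Real.sqrt (2 * Real.pi) = 2 := by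
    rw [← Real.sqrt_mul (by positivity)]
    have : 2 / Real.pi * (2 * Real.pi) = 2 ^ 2 := by field_simp
    rw [this, Real.sqrt_sq (by norm_num)]
  have h2 := sqrt_two_pi_pos
  field_simp
  linarith

lemma integrable_phi : Integrable phi := by simpa using integrable_phi_mul_pow 0
lemma integrable_phi_mul : Integrable (fun s => phi s * s) := by
  simpa using integrable_phi_mul_pow 1

lemma tail_one (N : ℝ) (hN : 0 ≤ N) :
    Real.sqrt (2 / Real.pi) * (gaussianReal 0 1).real (Ici N) ≤ phi N := by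
  have hc : 0 < Real.sqrt (2 / Real.pi) := by have := Real.pi_pos; positivity
  have h := tail_nonneg (fun s => phi s * s - Real.sqrt (2 / Real.pi) * phi s)
    (Real.sqrt (2 / Real.pi)) ?_ ?_ ?_ ?_ N hN
  · rw [integral_sub integrable_phi_mul.integrableOn (integrable_phi.const_mul _).integrableOn,
      integral_Ioi_mul_phi, integral_const_mul] at h
    rw [real_Ici]
    linarith
  · exact (integrable_phi_mul.sub (integrable_phi.const_mul _)).integrableOn
  · rw [integral_sub integrable_phi_mul.integrableOn (integrable_phi.const_mul _).integrableOn,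
      integral_Ioi_mul_phi, integral_const_mul, integral_Ioi_phi_zero, sqrt_two_div_pi_mul]
    simp
  · intro s _ hs2
    have := phi_nonneg s
    nlinarith
  · intro s hs
    have := phi_nonneg s
    nlinarith

lemma tail_two (N : ℝ) (hN : 0 ≤ N) :
    phi N ≤ Real.sqrt (2 / Real.pi) * ∫ s in Ici N, s ^ 2 ∂(gaussianReal 0 1) := by
  have hc : 0 < Real.sqrt (2 / Real.pi) := by have := Real.pi_pos; positivity
  have hi2 : Integrable (fun s => phi s * s ^ 2) := integrable_phi_mul_pow 2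
  have h := tail_nonneg (fun s => Real.sqrt (2 / Real.pi) * (phi s * s ^ 2) - phi s * s)
    (1 / Real.sqrt (2 / Real.pi)) ?_ ?_ ?_ ?_ N hN
  · rw [integral_sub (hi2.const_mul _).integrableOn integrable_phi_mul.integrableOn,
      integral_Ioi_mul_phi, integral_const_mul] at h
    rw [integral_Ici_sq]
    linarith
  · exact ((hi2.const_mul _).sub integrable_phi_mul).integrableOn
  · rw [integral_sub (hi2.const_mul _).integrableOn integrable_phi_mul.integrableOn,
      integral_Ioi_mul_phi, integral_const_mul, half_moments.1, sqrt_two_div_pi_mul]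
    simp
  · intro s hs hs2
    have h1 := phi_nonneg s
    rw [le_div_iff₀ hc] at hs2
    have : s * (s * Real.sqrt (2 / Real.pi)) ≤ s * 1 := mul_le_mul_of_nonneg_left hs2 hs
    nlinarith
  · intro s hs
    have h1 := phi_nonneg s
    rw [div_le_iff₀ hc] at hs
    have hs0 : 0 ≤ s := by
      by_contra hcon
      push Not at hcon
      nlinarith
    have : s * 1 ≤ s * (s * Real.sqrt (2 / Real.pi)) := mul_le_mul_of_nonneg_left hs hs0
    nlinarith

lemma real_Ico_eq (a b : ℝ) : (gaussianReal 0 1).real (Ico a b) = ∫ s in Ico a b, phi s := by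
  have : (gaussianReal 0 1).real (Ico a b) = ∫ s in Ico a b, (1 : ℝ) ∂(gaussianReal 0 1) := by simp
  rw [this, setIntegral_gauss measurableSet_Ico]
  simp

lemma real_Ico_le (β δ : ℝ) (hδ : 0 ≤ δ) :
    (gaussianReal 0 1).real (Ico β (β + δ)) ≤ δ * phi β + δ ^ 2 := by
  rw [real_Ico_eq]
  have h : ∫ s in Ico β (β + δ), phi s ≤ ∫ s in Ico β (β + δ), (phi β + δ) := by
    apply setIntegral_mono_on integrable_phi.integrableOn (by simp) measurableSet_Ico
    intro s hs
    have h1 := (abs_le.mp (abs_sub_phi s β)).2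
    have h2 : |s - β| ≤ δ := by rw [abs_of_nonneg (by linarith [hs.1])]; linarith [hs.2]
    linarith
  refine h.trans (le_of_eq ?_)
  simp [hδ]
  ring

lemma real_Ico_zero_le (α : ℝ) (hα : 0 ≤ α) :
    (gaussianReal 0 1).real (Ico 0 α) ≤ α * phi 0 := by
  rw [real_Ico_eq]
  have h : ∫ s in Ico 0 α, phi s ≤ ∫ s in Ico 0 α, (phi 0) := by
    apply setIntegral_mono_on integrable_phi.integrableOn (by simp) measurableSet_Ico
    intro s _
    exact phi_le_zero s
  refine h.trans (le_of_eq ?_)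
  simp [hα]

lemma mul_phi_le (N δ : ℝ) (hδ : 0 ≤ δ) :
    δ * (N * phi N) ≤ (∫ s in Ico N (N + δ), s ∂(gaussianReal 0 1)) + δ ^ 2 := by
  rw [setIntegral_gauss measurableSet_Ico]
  have h : ∫ s in Ico N (N + δ), (N * phi N - δ) ≤ ∫ s in Ico N (N + δ), phi s * s := by
    apply setIntegral_mono_on (by simp) integrable_phi_mul.integrableOn measurableSet_Ico
    intro s hs
    have h1 := (abs_le.mp (abs_sub_mul_phi s N)).1
    have h2 : |s - N| ≤ δ := by rw [abs_of_nonneg (by linarith [hs.1])]; linarith [hs.2]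
    nlinarith
  have h3 : ∫ s in Ico N (N + δ), (N * phi N - δ) = δ * (N * phi N) - δ ^ 2 := by
    simp [hδ]; ring
  linarith

lemma moment_half (n : ℕ) :
    ∫ s in Ici (0 : ℝ), s ^ n ∂(gaussianReal 0 1) = ∫ s in Ioi (0 : ℝ), phi s * s ^ n := by
  rw [setIntegral_gauss measurableSet_Ici, integral_Ici_eq_integral_Ioi]

end Vale.Agent.P226
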