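import Mathlib

open MeasureTheory ProbabilityTheory

namespace Vale.Agent.P226

/-- `A` is a partition of the whole space into measurable cells indexed by `ι`
(cells may be empty). -/
def IsPartition {E : Type*} [MeasurableSpace E] {ι : Type*} (A : ι → Set E) : Prop :=
  (∀ i, MeasurableSet (A i)) ∧ (Pairwise fun i j => Disjoint (A i) (A j)) ∧
    (⋃ i, A i) = Set.univ

/-- The (unnormalised) first moment of the set `S` for the standard Gaussian measure of `E`. -/
noncomputable def firstMoment {E : Type*} [NormedAddCommGroup E] [InnerProductSpace ℝ E]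
    [FiniteDimensional ℝ E] [MeasurableSpace E] [BorelSpace E] (S : Set E) : E :=
  ∫ x in S, x ∂(stdGaussian E)

/-- The sum of the squared norms of the first moments of the cells. -/
noncomputable def momentSum {E : Type*} [NormedAddCommGroup E] [InnerProductSpace ℝ E]
    [FiniteDimensional ℝ E] [MeasurableSpace E] [BorelSpace E] {ι : Type*} [Fintype ι]
    (A : ι → Set E) : ℝ :=
  ∑ i, ‖firstMoment (A i)‖ ^ 2

end Vale.Agent.P226
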