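import Mathlib
import Vale.Agent.P226.Defs

open MeasureTheory ProbabilityTheory Set
open scoped RealInnerProductSpace ENNReal NNReal

set_option linter.unusedSectionVars false

namespace Vale.Agent.P226

variable {E : Type*} [NormedAddCommGroup E] [InnerProductSpace ℝ E] [FiniteDimensional ℝ E]
  [MeasurableSpace E] [BorelSpace E] {ι : Type*} [Fintype ι]

lemma integrable_idE : Integrable (fun x : E => x) (stdGaussian E) :=
  IsGaussian.integrable_id

lemma integrable_inner (w : E) : Integrable (fun x : E => ⟪w, x⟫) (stdGaussian E) :=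
  integrable_idE.const_inner w

lemma integrable_normE : Integrable (fun x : E => ‖x‖) (stdGaussian E) :=
  integrable_idE.norm

lemma inner_firstMoment (w : E) (S : Set E) :
    ⟪w, firstMoment S⟫ = ∫ x in S, ⟪w, x⟫ ∂(stdGaussian E) := by
  unfold firstMoment
  rw [← integral_inner (integrable_idE.integrableOn (s := S)) w]

lemma sum_setIntegral {F : Type*} [NormedAddCommGroup F] [NormedSpace ℝ F] {A : ι → Set E}
    (hA : IsPartition A) {f : E → F} (hf : Integrable f (stdGaussian E)) :
    ∑ i, ∫ x in A i, f x ∂(stdGaussian E) = ∫ x, f x ∂(stdGaussian E) := by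
  rw [← integral_iUnion_fintype hA.1 hA.2.1 (fun i => hf.integrableOn), hA.2.2]
  simp

lemma sum_firstMoment {A : ι → Set E} (hA : IsPartition A) : ∑ i, firstMoment (A i) = 0 := by
  unfold firstMoment
  rw [sum_setIntegral hA integrable_idE, integral_id_stdGaussian]

lemma momentSum_nonneg (A : ι → Set E) : 0 ≤ momentSum A := by
  unfold momentSum; positivity

section Max

variable [Nonempty ι]

/-- the maximum of the linear functionals `w i` at `x` -/
noncomputable def mx (w : ι → E) (x : E) : ℝ :=
  Finset.univ.sup' Finset.univ_nonempty (fun i => ⟪w i, x⟫)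

lemma le_mx (w : ι → E) (x : E) (i : ι) : ⟪w i, x⟫ ≤ mx w x :=
  Finset.le_sup' (fun i => ⟪w i, x⟫) (Finset.mem_univ i)

lemma mx_le (w : ι → E) (x : E) (c : ℝ) (h : ∀ i, ⟪w i, x⟫ ≤ c) : mx w x ≤ c :=
  Finset.sup'_le _ _ (fun i _ => h i)

lemma exists_mx (w : ι → E) (x : E) : ∃ i, mx w x = ⟪w i, x⟫ := by
  obtain ⟨i, _, hi⟩ := Finset.exists_mem_eq_sup' Finset.univ_nonempty (fun i => ⟪w i, x⟫)
  exact ⟨i, hi⟩

lemma mx_sub_le (w w' : ι → E) (x : E) : mx w x - mx w' x ≤ ‖w - w'‖ * ‖x‖ := by
  obtain ⟨i, hi⟩ := exists_mx w x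
  have h1 := le_mx w' x i
  have h2 : ⟪w i - w' i, x⟫ ≤ ‖w i - w' i‖ * ‖x‖ := real_inner_le_norm _ _
  have h3 : ‖w i - w' i‖ ≤ ‖w - w'‖ := norm_le_pi_norm (w - w') i
  rw [inner_sub_left] at h2
  have h4 : ‖w i - w' i‖ * ‖x‖ ≤ ‖w - w'‖ * ‖x‖ :=
    mul_le_mul_of_nonneg_right h3 (norm_nonneg _)
  linarith

lemma abs_mx_sub_le (w w' : ι → E) (x : E) : |mx w x - mx w' x| ≤ ‖w - w'‖ * ‖x‖ := by
  rw [abs_le]
  constructor
  · have := mx_sub_le w' w x
    rw [norm_sub_rev] at this
    linarith
  · exact mx_sub_le w w' x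

lemma continuous_mx (w : ι → E) : Continuous (mx w) := by
  unfold mx
  apply Continuous.finset_sup'_apply
  intro i _
  fun_prop

lemma integrable_mx (w : ι → E) : Integrable (mx w) (stdGaussian E) := by
  refine Integrable.mono' (integrable_normE.const_mul ‖w‖)
    (continuous_mx w).aestronglyMeasurable ?_
  filter_upwards with x
  have h := abs_mx_sub_le w 0 x
  have h0 : mx (0 : ι → E) x = 0 := by
    obtain ⟨i, hi⟩ := exists_mx (0 : ι → E) x
    rw [hi]; simp
  rw [h0] at h
  simpa using h

/-- the expected maximum -/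
noncomputable def Em (w : ι → E) : ℝ := ∫ x, mx w x ∂(stdGaussian E)

lemma continuous_Em : Continuous (Em : (ι → E) → ℝ) := by
  have hL : ∀ w w' : ι → E, |Em w - Em w'| ≤ (∫ x, ‖x‖ ∂(stdGaussian E)) * ‖w - w'‖ := by
    intro w w'
    unfold Em
    rw [← integral_sub (integrable_mx w) (integrable_mx w')]
    calc |∫ x, (mx w x - mx w' x) ∂(stdGaussian E)|
        ≤ ∫ x, |mx w x - mx w' x| ∂(stdGaussian E) := abs_integral_le_integral_abs
      _ ≤ ∫ x, ‖w - w'‖ * ‖x‖ ∂(stdGaussian E) := by
          apply integral_mono ((integrable_mx w).sub (integrable_mx w')).abs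
            (integrable_normE.const_mul _)
          intro x
          exact abs_mx_sub_le w w' x
      _ = _ := by rw [integral_const_mul]; ring
  have h0 : 0 ≤ ∫ x, ‖x‖ ∂(stdGaussian E) := integral_nonneg (fun x => norm_nonneg x)
  have : LipschitzWith (Real.toNNReal (∫ x, ‖x‖ ∂(stdGaussian E))) (Em : (ι → E) → ℝ) := by
    apply LipschitzWith.of_dist_le_mul
    intro w w'
    rw [Real.dist_eq, dist_eq_norm, Real.coe_toNNReal _ h0]
    exact hL w w'
  exact this.continuous

lemma sum_inner_le_Em {A : ι → Set E} (hA : IsPartition A) (w : ι → E) :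
    ∑ i, ⟪w i, firstMoment (A i)⟫ ≤ Em w := by
  unfold Em
  rw [← sum_setIntegral hA (integrable_mx w)]
  apply Finset.sum_le_sum
  intro i _
  rw [inner_firstMoment]
  apply setIntegral_mono (integrable_inner _).integrableOn (integrable_mx w).integrableOn
  intro x
  exact le_mx w x i

lemma momentSum_le_Em {A : ι → Set E} (hA : IsPartition A) :
    momentSum A ≤ Em (fun i => firstMoment (A i)) := by
  have h := sum_inner_le_Em hA (fun i => firstMoment (A i))
  refine le_trans (le_of_eq ?_) h
  unfold momentSum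
  apply Finset.sum_congr rfl
  intro i _
  rw [real_inner_self_eq_norm_sq]

lemma Em_smul (w : ι → E) (m : ℝ) (hm : 0 ≤ m) : Em (fun i => m • w i) = m * Em w := by
  unfold Em
  rw [← integral_const_mul]
  congr 1
  ext x
  apply le_antisymm
  · apply mx_le
    intro i
    rw [inner_smul_left]
    exact mul_le_mul_of_nonneg_left (le_mx w x i) hm
  · obtain ⟨i, hi⟩ := exists_mx w x
    rw [hi]
    have := le_mx (fun i => m • w i) x i
    rw [inner_smul_left] at this
    simpa using this

variable [LinearOrder ι]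

/-- argmax cells with ties broken by the smallest index -/
def argCell (w : ι → E) (i : ι) : Set E :=
  {x | (∀ j, ⟪w j, x⟫ ≤ ⟪w i, x⟫) ∧ ∀ j, j < i → ⟪w j, x⟫ < ⟪w i, x⟫}

lemma isPartition_argCell (w : ι → E) : IsPartition (argCell w) := by
  refine ⟨?_, ?_, ?_⟩
  · intro i
    have h1 : MeasurableSet {x : E | ∀ j, ⟪w j, x⟫ ≤ ⟪w i, x⟫} := by
      rw [Set.ofPred_forall]
      apply MeasurableSet.iInter
      intro j
      exact measurableSet_le (by fun_prop) (by fun_prop)
    have h2 : MeasurableSet {x : E | ∀ j, j < i → ⟪w j, x⟫ < ⟪w i, x⟫} := by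
      rw [Set.ofPred_forall]
      apply MeasurableSet.iInter
      intro j
      by_cases hj : j < i
      · simp only [hj, true_imp_iff]
        exact measurableSet_lt (by fun_prop) (by fun_prop)
      · simp [hj]
    exact h1.inter h2
  · intro i j hij
    rw [Set.disjoint_left]
    intro x hxi hxj
    rcases lt_or_gt_of_ne hij with h | h
    · exact absurd (hxi.1 j) (not_le.mpr (hxj.2 i h))
    · exact absurd (hxj.1 i) (not_le.mpr (hxi.2 j h))
  · rw [Set.eq_univ_iff_forall]
    intro x
    rw [Set.mem_iUnion]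
    let S : Finset ι := Finset.univ.filter (fun i => ∀ j, ⟪w j, x⟫ ≤ ⟪w i, x⟫)
    have hS : S.Nonempty := by
      obtain ⟨i, hi⟩ := exists_mx w x
      refine ⟨i, ?_⟩
      simp only [S, Finset.mem_filter, Finset.mem_univ, true_and]
      intro j
      rw [← hi]; exact le_mx w x j
    refine ⟨S.min' hS, ?_, ?_⟩
    · have := S.min'_mem hS
      simp only [S, Finset.mem_filter, Finset.mem_univ, true_and] at this
      exact this
    · intro j hj
      have h1 := S.min'_mem hS
      simp only [S, Finset.mem_filter, Finset.mem_univ, true_and] at h1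
      by_contra hcon
      push Not at hcon
      have hjS : j ∈ S := by
        simp only [S, Finset.mem_filter, Finset.mem_univ, true_and]
        intro l
        exact (h1 l).trans hcon
      exact absurd (S.min'_le j hjS) (not_le.mpr hj)

lemma sum_inner_argCell (w : ι → E) :
    ∑ i, ⟪w i, firstMoment (argCell w i)⟫ = Em w := by
  unfold Em
  rw [← sum_setIntegral (isPartition_argCell w) (integrable_mx w)]
  apply Finset.sum_congr rfl
  intro i _
  rw [inner_firstMoment]
  apply setIntegral_congr_fun ((isPartition_argCell w).1 i)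
  intro x hx
  apply le_antisymm (le_mx w x i)
  exact mx_le w x _ hx.1

lemma argCell_smul (w : ι → E) (m : ℝ) (hm : 0 < m) : argCell (fun i => m • w i) = argCell w := by
  ext i x
  simp only [argCell, Set.mem_ofPred_eq, inner_smul_left, RCLike.conj_to_real]
  constructor
  · rintro ⟨h1, h2⟩
    exact ⟨fun j => le_of_mul_le_mul_left (h1 j) hm, fun j hj => lt_of_mul_lt_mul_left (h2 j hj) hm.le⟩
  · rintro ⟨h1, h2⟩
    exact ⟨fun j => mul_le_mul_of_nonneg_left (h1 j) hm.le,
      fun j hj => mul_lt_mul_of_pos_left (h2 j hj) hm⟩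

end Max

end Vale.Agent.P226
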