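import Mathlib

open MeasureTheory ProbabilityTheory Set
open scoped RealInnerProductSpace ENNReal NNReal

set_option linter.unusedSectionVars false

namespace Vale.Agent.P226

variable {E : Type*} [NormedAddCommGroup E] [InnerProductSpace ℝ E] [FiniteDimensional ℝ E]
  [MeasurableSpace E] [BorelSpace E]

/-- `split e (s, x) = s • e + (x - ⟪e, x⟫ • e)`. -/
noncomputable def split (e : E) : ℝ × E → E := fun p => p.1 • e + (p.2 - ⟪e, p.2⟫ • e)

lemma continuous_split (e : E) : Continuous (split e) := by
  unfold split; fun_prop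

lemma measurable_split (e : E) : Measurable (split e) := (continuous_split e).measurable

lemma inner_split (e : E) (p : ℝ × E) (t : E) :
    ⟪split e p, t⟫ = p.1 * ⟪e, t⟫ + ⟪p.2, t - ⟪e, t⟫ • e⟫ := by
  unfold split
  rw [inner_add_left, inner_sub_left, inner_smul_left, inner_smul_left, inner_sub_right,
    inner_smul_right, real_inner_comm e p.2]
  simp
  ring

lemma map_split (e : E) (he : ‖e‖ = 1) :
    ((gaussianReal 0 1).prod (stdGaussian E)).map (split e) = stdGaussian E := by
  have hprob : IsProbabilityMeasure (((gaussianReal 0 1).prod (stdGaussian E)).map (split e)) :=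
    Measure.isProbabilityMeasure_map (measurable_split e).aemeasurable
  apply Measure.ext_of_charFun (E := E)
  ext t
  rw [charFun_stdGaussian, charFun_apply, integral_map (measurable_split e).aemeasurable
    (by fun_prop)]
  have h1 : ∀ p : ℝ × E, Complex.exp ((⟪split e p, t⟫ : ℂ) * Complex.I)
      = Complex.exp (((⟪e, t⟫ : ℝ) : ℂ) * (p.1 : ℂ) * Complex.I) *
        Complex.exp ((⟪p.2, t - ⟪e, t⟫ • e⟫ : ℂ) * Complex.I) := by
    intro p
    rw [inner_split, ← Complex.exp_add]
    congr 1
    push_cast
    ring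
  simp_rw [h1]
  rw [integral_prod_mul (f := fun s : ℝ => Complex.exp (((⟪e, t⟫ : ℝ) : ℂ) * (s : ℂ) * Complex.I))
    (g := fun x : E => Complex.exp ((⟪x, t - ⟪e, t⟫ • e⟫ : ℂ) * Complex.I)),
    ← charFun_apply_real, ← charFun_apply, charFun_gaussianReal, charFun_stdGaussian,
    ← Complex.exp_add]
  congr 1
  have h2 : ‖t - ⟪e, t⟫ • e‖ ^ 2 = ‖t‖ ^ 2 - ⟪e, t⟫ ^ 2 := by
    rw [norm_sub_sq_real, inner_smul_right, norm_smul, he, real_inner_comm]
    simp
    ring
  have h3 : ((‖t - ⟪e, t⟫ • e‖ : ℝ) : ℂ) ^ 2 = ((‖t‖ ^ 2 - ⟪e, t⟫ ^ 2 : ℝ) : ℂ) := by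
    rw [← h2]; push_cast; ring
  rw [h3]
  push_cast
  simp
  ring

/-- Disintegration of the standard Gaussian along a unit vector, for integrals. -/
lemma integral_split {F : Type*} [NormedAddCommGroup F] [NormedSpace ℝ F]
    (e : E) (he : ‖e‖ = 1) (f : E → F)
    (hf : Integrable f (stdGaussian E)) :
    ∫ x, f x ∂(stdGaussian E) =
      ∫ x, ∫ s, f (split e (s, x)) ∂(gaussianReal 0 1) ∂(stdGaussian E) := by
  have hf' : Integrable f (((gaussianReal 0 1).prod (stdGaussian E)).map (split e)) := by
    rwa [map_split e he]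
  conv_lhs => rw [← map_split e he]
  rw [integral_map (measurable_split e).aemeasurable hf'.aestronglyMeasurable]
  have hi : Integrable (fun p => f (split e p)) ((gaussianReal 0 1).prod (stdGaussian E)) :=
    hf'.comp_measurable (measurable_split e)
  rw [integral_prod_symm _ hi]

lemma integrable_split {F : Type*} [NormedAddCommGroup F] [NormedSpace ℝ F]
    (e : E) (he : ‖e‖ = 1) (f : E → F)
    (hf : Integrable f (stdGaussian E)) :
    Integrable (fun x => ∫ s, f (split e (s, x)) ∂(gaussianReal 0 1)) (stdGaussian E) := by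
  have hf' : Integrable f (((gaussianReal 0 1).prod (stdGaussian E)).map (split e)) := by
    rwa [map_split e he]
  have hi : Integrable (fun p => f (split e p)) ((gaussianReal 0 1).prod (stdGaussian E)) :=
    hf'.comp_measurable (measurable_split e)
  exact hi.integral_prod_right

lemma integrable_split_ae {F : Type*} [NormedAddCommGroup F] [NormedSpace ℝ F]
    (e : E) (he : ‖e‖ = 1) (f : E → F)
    (hf : Integrable f (stdGaussian E)) :
    ∀ᵐ x ∂(stdGaussian E), Integrable (fun s => f (split e (s, x))) (gaussianReal 0 1) := by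
  have hf' : Integrable f (((gaussianReal 0 1).prod (stdGaussian E)).map (split e)) := by
    rwa [map_split e he]
  have hi : Integrable (fun p => f (split e p)) ((gaussianReal 0 1).prod (stdGaussian E)) :=
    hf'.comp_measurable (measurable_split e)
  exact hi.prod_left_ae

end Vale.Agent.P226
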