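import Mathlib
import Vale.Agent.P226.Split
import Vale.Agent.P226.Gauss1
import Vale.Agent.P226.Part

open MeasureTheory ProbabilityTheory Set
open scoped RealInnerProductSpace ENNReal NNReal

set_option linter.unusedSectionVars false

namespace Vale.Agent.P226

variable {E : Type*} [NormedAddCommGroup E] [InnerProductSpace ℝ E] [FiniteDimensional ℝ E]
  [MeasurableSpace E] [BorelSpace E]

/-- law of a unit linear functional -/
lemma map_inner_unit (e : E) (he : ‖e‖ = 1) :
    (stdGaussian E).map (fun x => ⟪e, x⟫) = gaussianReal 0 1 := by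
  have h := IsGaussian.map_eq_gaussianReal (μ := stdGaussian E) (innerSL ℝ e)
  rw [variance_dual_stdGaussian, integral_strongDual_stdGaussian, innerSL_apply_norm, he] at h
  simpa using h

lemma inner_split_self (e : E) (he : ‖e‖ = 1) (s : ℝ) (x : E) : ⟪e, split e (s, x)⟫ = s := by
  rw [real_inner_comm, inner_split]
  have : ⟪e, e⟫ = (1 : ℝ) := by rw [real_inner_self_eq_norm_sq, he]; norm_num
  rw [this]; simp

lemma inner_split' (e v : E) (s : ℝ) (x : E) :
    ⟪v, split e (s, x)⟫ = s * ⟪v, e⟫ + ⟪v, x - ⟪e, x⟫ • e⟫ := by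
  unfold split
  rw [inner_add_right, inner_smul_right]

lemma inner_split_orth (e v : E) (hv : ⟪v, e⟫ = 0) (s : ℝ) (x : E) :
    ⟪v, split e (s, x)⟫ = ⟪v, x⟫ := by
  rw [inner_split', hv, inner_sub_right, inner_smul_right, hv]; simp

/-- comparison of integrals slice by slice -/
lemma integral_le_of_split (e : E) (he : ‖e‖ = 1) {f g : E → ℝ}
    (hf : Integrable f (stdGaussian E)) (hg : Integrable g (stdGaussian E)) (c : ℝ)
    (h : ∀ x, ∫ s, f (split e (s, x)) ∂(gaussianReal 0 1) ≤
      (∫ s, g (split e (s, x)) ∂(gaussianReal 0 1)) + c) :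
    ∫ x, f x ∂(stdGaussian E) ≤ (∫ x, g x ∂(stdGaussian E)) + c := by
  rw [integral_split e he f hf, integral_split e he g hg]
  calc ∫ x, ∫ s, f (split e (s, x)) ∂(gaussianReal 0 1) ∂(stdGaussian E)
      ≤ ∫ x, ((∫ s, g (split e (s, x)) ∂(gaussianReal 0 1)) + c) ∂(stdGaussian E) := by
        apply integral_mono (integrable_split e he f hf)
          ((integrable_split e he g hg).add (integrable_const c))
        intro x
        exact h x
    _ = _ := by
        rw [integral_add (integrable_split e he g hg) (integrable_const c)]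
        simp

/-- slice of a set integral -/
lemma slice_integral (e : E) (S : Set E) (hS : MeasurableSet S) (f : E → ℝ) (x : E) :
    ∫ s, S.indicator f (split e (s, x)) ∂(gaussianReal 0 1) =
      ∫ s in {s | split e (s, x) ∈ S}, f (split e (s, x)) ∂(gaussianReal 0 1) := by
  have hm : MeasurableSet {s | split e (s, x) ∈ S} := by
    have : Measurable (fun s : ℝ => split e (s, x)) :=
      (measurable_split e).comp (measurable_id.prodMk measurable_const)
    exact this hS
  rw [← integral_indicator hm]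
  rfl

lemma measureReal_inner_eq_zero (v : E) (hv : v ≠ 0) :
    (stdGaussian E) {x | ⟪v, x⟫ = 0} = 0 := by
  have hn : 0 < ‖v‖ := norm_pos_iff.mpr hv
  have he : ‖(‖v‖⁻¹ : ℝ) • v‖ = 1 := by
    rw [norm_smul, norm_inv, norm_norm, inv_mul_cancel₀ hn.ne']
  have h1 := map_inner_unit _ he
  have h2 : {x : E | ⟪v, x⟫ = 0} = (fun x => ⟪(‖v‖⁻¹ : ℝ) • v, x⟫) ⁻¹' {0} := by
    ext x
    simp only [Set.mem_ofPred_eq, mem_preimage, mem_singleton_iff, inner_smul_left,
      RCLike.conj_to_real, mul_eq_zero, inv_eq_zero]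
    constructor
    · intro h; right; exact h
    · rintro (h | h)
      · exact absurd h hn.ne'
      · exact h
  have hm : Measurable (fun x : E => ⟪(‖v‖⁻¹ : ℝ) • v, x⟫) := by fun_prop
  rw [h2, ← Measure.map_apply hm (measurableSet_singleton 0), h1]
  have := noAtoms_gaussianReal (μ := 0) (v := 1) one_ne_zero
  exact measure_singleton 0

lemma integrable_pow_inner (v : E) (n : ℕ) : Integrable (fun x : E => ⟪v, x⟫ ^ n)
    (stdGaussian E) := by
  by_cases hv : v = 0
  · subst hv
    simp only [inner_zero_left]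
    exact integrable_const _
  · have hn : 0 < ‖v‖ := norm_pos_iff.mpr hv
    have he : ‖(‖v‖⁻¹ : ℝ) • v‖ = 1 := by
      rw [norm_smul, norm_inv, norm_norm, inv_mul_cancel₀ hn.ne']
    have h1 := integrable_pow_gauss n
    rw [← map_inner_unit _ he] at h1
    have h2 := (h1.comp_measurable (by fun_prop)).const_mul (‖v‖ ^ n)
    refine h2.congr ?_
    filter_upwards with x
    simp only [inner_smul_left, Function.comp, RCLike.conj_to_real]
    rw [← mul_pow, ← mul_assoc, mul_inv_cancel₀ hn.ne', one_mul]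

lemma moment_inner_eight (v : E) :
    ∫ x, ⟪v, x⟫ ^ 8 ∂(stdGaussian E) = 105 * ‖v‖ ^ 8 := by
  by_cases hv : v = 0
  · subst hv
    simp
  · have hn : 0 < ‖v‖ := norm_pos_iff.mpr hv
    have he : ‖(‖v‖⁻¹ : ℝ) • v‖ = 1 := by
      rw [norm_smul, norm_inv, norm_norm, inv_mul_cancel₀ hn.ne']
    have h1 := moment_eight
    rw [← map_inner_unit _ he, integral_map (by fun_prop) (by fun_prop)] at h1
    have h2 : ∀ x : E, ⟪v, x⟫ ^ 8 = ‖v‖ ^ 8 * ⟪(‖v‖⁻¹ : ℝ) • v, x⟫ ^ 8 := by
      intro x
      rw [inner_smul_left, RCLike.conj_to_real, ← mul_pow, ← mul_assoc, mul_inv_cancel₀ hn.ne',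
        one_mul]
    simp_rw [h2]
    rw [integral_const_mul, h1]; ring

lemma half_moment_inner (e : E) (he : ‖e‖ = 1) (n : ℕ) :
    ∫ x in {x : E | 0 ≤ ⟪e, x⟫}, ⟪e, x⟫ ^ n ∂(stdGaussian E) =
      ∫ s in Ioi (0 : ℝ), phi s * s ^ n := by
  rw [← moment_half, ← map_inner_unit _ he]
  rw [setIntegral_map measurableSet_Ici (by fun_prop) (by fun_prop)]
  rfl

end Vale.Agent.P226
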