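import Mathlib
import Vale.Agent.P226.Slice
import Vale.Agent.P226.Lin

open MeasureTheory ProbabilityTheory Set
open scoped RealInnerProductSpace ENNReal NNReal

set_option linter.unusedSectionVars false

namespace Vale.Agent.P226

variable {E : Type*} [NormedAddCommGroup E] [InnerProductSpace ℝ E] [FiniteDimensional ℝ E]
  [MeasurableSpace E] [BorelSpace E] {ι : Type*} [Fintype ι]

/-- closed cone cell -/
def cone (u : ι → E) (i : ι) : Set E := {x | ∀ l, 0 ≤ ⟪u i - u l, x⟫}

/-- the part of the cone cell near its facet `j` -/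
def slab (u : ι → E) (i j : ι) (α : ℝ) : Set E := {x | x ∈ cone u i ∧ ⟪u i - u j, x⟫ < α}

lemma measurableSet_cone (u : ι → E) (i : ι) : MeasurableSet (cone u i) := by
  unfold cone
  rw [Set.ofPred_forall]
  exact MeasurableSet.iInter (fun l => measurableSet_le measurable_const (by fun_prop))

lemma measurableSet_slab (u : ι → E) (i j : ι) (α : ℝ) : MeasurableSet (slab u i j α) := by
  have h1 : MeasurableSet {x : E | ⟪u i - u j, x⟫ < α} :=
    measurableSet_lt (by fun_prop) measurable_const
  exact (measurableSet_cone u i).inter h1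

lemma cone_ae_eq [LinearOrder ι] {u : ι → E} {i : ι} (h : ∀ l, l ≠ i → u i - u l ≠ 0) :
    argCell u i =ᵐ[stdGaussian E] cone u i := by
  rw [ae_eq_set]
  constructor
  · have : argCell u i \ cone u i = ∅ := by
      ext x
      simp only [mem_sdiff, mem_empty_iff_false, iff_false, not_and, not_not]
      intro hx l
      rw [inner_sub_left]
      linarith [hx.1 l]
    rw [this]; simp
  · have hsub : cone u i \ argCell u i ⊆ ⋃ l ∈ {l | l ≠ i}, {x : E | ⟪u i - u l, x⟫ = 0} := by
      intro x hx
      by_contra hcon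
      simp only [mem_iUnion, not_exists, Set.mem_ofPred_eq] at hcon
      apply hx.2
      have h1 : ∀ l, l ≠ i → ⟪u l, x⟫ < ⟪u i, x⟫ := by
        intro l hl
        have h2 := hx.1 l
        have h3 := hcon l hl
        rw [inner_sub_left] at h2 h3
        rcases h2.lt_or_eq with h4 | h4
        · linarith
        · exact absurd h4.symm h3
      refine ⟨fun j => ?_, fun j hj => h1 j (ne_of_lt hj)⟩
      by_cases hj : j = i
      · rw [hj]
      · exact (h1 j hj).le
    apply measure_mono_null hsub
    rw [measure_biUnion_null_iff (Set.to_countable _)]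
    intro l hl
    exact measureReal_inner_eq_zero _ (h l hl)

lemma firstMoment_cone [LinearOrder ι] {u : ι → E} {i : ι} (h : ∀ l, l ≠ i → u i - u l ≠ 0) :
    firstMoment (cone u i) = firstMoment (argCell u i) := by
  unfold firstMoment
  exact (setIntegral_congr_set (cone_ae_eq h)).symm

/-- Flux bound: the mass of the cell near a facet is at most `α (1/K + ‖a‖² α)`. -/
lemma slab_measure_le [DecidableEq ι] {u : ι → E} {i j : ι} {a : E}
    (ha : ∀ l, ⟪u i - u l, a⟫ = if l = j then 1 else 0) (c : ℝ)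
    (hc : ⟪a, firstMoment (cone u i)⟫ = c) (α : ℝ) (hα : 0 ≤ α) :
    (stdGaussian E).real (slab u i j α) ≤ α * c + ‖a‖ ^ 2 * α ^ 2 := by
  have ha0 : a ≠ 0 := by
    rintro rfl
    have := ha j
    simp at this
  have hn : 0 < ‖a‖ := norm_pos_iff.mpr ha0
  set e : E := (‖a‖⁻¹ : ℝ) • a with he_def
  have he : ‖e‖ = 1 := by
    rw [he_def, norm_smul, norm_inv, norm_norm, inv_mul_cancel₀ hn.ne']
  have hye : ∀ l, ⟪u i - u l, e⟫ = if l = j then ‖a‖⁻¹ else 0 := by
    intro l
    rw [he_def, inner_smul_right, ha l]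
    split_ifs <;> simp
  -- slice description
  set N : E → ℝ := fun x => -(‖a‖ * ⟪u i - u j, x - ⟪e, x⟫ • e⟫) with hN
  have hcone : ∀ x s, split e (s, x) ∈ cone u i ↔
      (∀ l, l ≠ j → 0 ≤ ⟪u i - u l, x - ⟪e, x⟫ • e⟫) ∧ N x ≤ s := by
    intro x s
    unfold cone
    simp only [Set.mem_ofPred_eq, inner_split', hye]
    have key : (0 ≤ s * ‖a‖⁻¹ + ⟪u i - u j, x - ⟪e, x⟫ • e⟫) ↔ N x ≤ s := by
      rw [hN]
      have : s * ‖a‖⁻¹ + ⟪u i - u j, x - ⟪e, x⟫ • e⟫ =
          ‖a‖⁻¹ * (s + ‖a‖ * ⟪u i - u j, x - ⟪e, x⟫ • e⟫) := by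
        field_simp
      rw [this]
      constructor
      · intro h
        have h2 : 0 ≤ s + ‖a‖ * ⟪u i - u j, x - ⟪e, x⟫ • e⟫ := by
          by_contra hcon
          push Not at hcon
          have : ‖a‖⁻¹ * (s + ‖a‖ * ⟪u i - u j, x - ⟪e, x⟫ • e⟫) < 0 :=
            mul_neg_of_pos_of_neg (inv_pos.mpr hn) hcon
          linarith
        show -(‖a‖ * ⟪u i - u j, x - ⟪e, x⟫ • e⟫) ≤ s
        linarith
      · intro h
        have h' : -(‖a‖ * ⟪u i - u j, x - ⟪e, x⟫ • e⟫) ≤ s := h
        apply mul_nonneg (inv_nonneg.mpr hn.le)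
        linarith
    constructor
    · intro h
      refine ⟨fun l hl => ?_, ?_⟩
      · have := h l
        rw [if_neg hl] at this
        simpa using this
      · have := h j
        rw [if_pos rfl] at this
        exact key.mp this
    · rintro ⟨h1, h2⟩ l
      by_cases hl : l = j
      · rw [if_pos hl, hl]
        exact key.mpr h2
      · rw [if_neg hl]
        simpa using h1 l hl
  have hslab : ∀ x s, split e (s, x) ∈ slab u i j α ↔
      (split e (s, x) ∈ cone u i ∧ s < N x + ‖a‖ * α) := by
    intro x s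
    unfold slab
    simp only [Set.mem_ofPred_eq]
    have key : ⟪u i - u j, split e (s, x)⟫ < α ↔ s < N x + ‖a‖ * α := by
      rw [inner_split', hye, if_pos rfl]
      have : s * ‖a‖⁻¹ + ⟪u i - u j, x - ⟪e, x⟫ • e⟫ = ‖a‖⁻¹ * (s - N x) := by
        rw [hN]; field_simp; ring
      rw [this, inv_mul_lt_iff₀ hn]
      constructor <;> intro h <;> linarith
    rw [key]
  -- slice inequality
  have h0 := integral_le_of_split e he
    (f := (slab u i j α).indicator (fun _ => (1 : ℝ)))
    (g := (cone u i).indicator (fun x => (‖a‖ * α) * ⟪e, x⟫))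
    ((integrable_const _).indicator (measurableSet_slab u i j α))
    (((integrable_inner e).const_mul _).indicator (measurableSet_cone u i))
    ((‖a‖ * α) ^ 2) ?_
  · rw [integral_indicator (measurableSet_slab u i j α),
      integral_indicator (measurableSet_cone u i), integral_const_mul, ← inner_firstMoment] at h0
    have h1 : ⟪e, firstMoment (cone u i)⟫ = ‖a‖⁻¹ * c := by
      rw [he_def, inner_smul_left, hc]; simp
    rw [h1] at h0
    have h2 : ‖a‖ * α * (‖a‖⁻¹ * c) = α * c := by field_simp
    rw [h2] at h0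
    simp only [integral_const, smul_eq_mul, mul_one, measureReal_restrict_apply_univ] at h0
    refine h0.trans (le_of_eq ?_)
    ring
  · intro x
    rw [slice_integral e _ (measurableSet_slab u i j α), slice_integral e _ (measurableSet_cone u i)]
    by_cases hP : ∀ l, l ≠ j → 0 ≤ ⟪u i - u l, x - ⟪e, x⟫ • e⟫
    · have h1 : {s | split e (s, x) ∈ slab u i j α} = Ico (N x) (N x + ‖a‖ * α) := by
        ext s
        simp only [Set.mem_ofPred_eq, hslab, hcone, mem_Ico]
        constructor
        · rintro ⟨⟨_, h⟩, h'⟩; exact ⟨h, h'⟩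
        · rintro ⟨h, h'⟩; exact ⟨⟨hP, h⟩, h'⟩
      have h2 : {s | split e (s, x) ∈ cone u i} = Ici (N x) := by
        ext s
        simp only [Set.mem_ofPred_eq, hcone, mem_Ici]
        constructor
        · rintro ⟨_, h⟩; exact h
        · intro h; exact ⟨hP, h⟩
      rw [h1, h2]
      simp only [inner_split_self e he]
      rw [integral_const_mul, integral_Ici_id]
      have h3 := real_Ico_le (N x) (‖a‖ * α) (by positivity)
      simpa using h3
    · have h1 : {s | split e (s, x) ∈ slab u i j α} = ∅ := by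
        ext s
        simp only [Set.mem_ofPred_eq, hslab, hcone, mem_empty_iff_false, iff_false]
        rintro ⟨⟨h, _⟩, _⟩
        exact hP h
      have h2 : {s | split e (s, x) ∈ cone u i} = ∅ := by
        ext s
        simp only [Set.mem_ofPred_eq, hcone, mem_empty_iff_false, iff_false]
        rintro ⟨h, _⟩
        exact hP h
      rw [h1, h2]
      simp
      positivity

/-- eighth moment of an orthogonal functional in a thin slab -/
lemma slab_moment_le {y v : E} (hy : y ≠ 0) (hv : ⟪v, y⟫ = 0) (α : ℝ) (hα : 0 ≤ α) :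
    ∫ x in {x : E | 0 ≤ ⟪y, x⟫ ∧ ⟪y, x⟫ < α}, ⟪v, x⟫ ^ 8 ∂(stdGaussian E) ≤
      α * phi 0 / ‖y‖ * (105 * ‖v‖ ^ 8) := by
  have hn : 0 < ‖y‖ := norm_pos_iff.mpr hy
  set e : E := (‖y‖⁻¹ : ℝ) • y with he_def
  have he : ‖e‖ = 1 := by
    rw [he_def, norm_smul, norm_inv, norm_norm, inv_mul_cancel₀ hn.ne']
  have hS : MeasurableSet {x : E | 0 ≤ ⟪y, x⟫ ∧ ⟪y, x⟫ < α} := by
    have h1 : MeasurableSet {x : E | ⟪y, x⟫ < α} :=
      measurableSet_lt (by fun_prop) measurable_const
    have h2 : MeasurableSet {x : E | 0 ≤ ⟪y, x⟫} :=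
      measurableSet_le measurable_const (by fun_prop)
    exact h2.inter h1
  have hye : ⟪y, e⟫ = ‖y‖ := by
    rw [he_def, inner_smul_right, real_inner_self_eq_norm_sq]; field_simp
  have hve : ⟪v, e⟫ = 0 := by rw [he_def, inner_smul_right, hv, mul_zero]
  have hyo : ∀ x : E, ⟪y, x - ⟪e, x⟫ • e⟫ = 0 := by
    intro x
    rw [inner_sub_right, inner_smul_right, hye, he_def, inner_smul_left]
    simp only [RCLike.conj_to_real]
    field_simp
    ring
  have hint : Integrable ({x : E | 0 ≤ ⟪y, x⟫ ∧ ⟪y, x⟫ < α}.indicator (fun x => ⟪v, x⟫ ^ 8))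
      (stdGaussian E) := (integrable_pow_inner v 8).indicator hS
  rw [← integral_indicator hS]
  have h0 := integral_le_of_split e he hint
    ((integrable_pow_inner v 8).const_mul (α * phi 0 / ‖y‖)) 0 ?_
  · rw [integral_const_mul, moment_inner_eight] at h0
    linarith
  · intro x
    rw [slice_integral e _ hS]
    have h1 : {s | split e (s, x) ∈ {x : E | 0 ≤ ⟪y, x⟫ ∧ ⟪y, x⟫ < α}} = Ico 0 (α / ‖y‖) := by
      ext s
      simp only [Set.mem_ofPred_eq, inner_split', hye, hyo, add_zero, mem_Ico]
      rw [lt_div_iff₀ hn]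
      constructor
      · rintro ⟨h, h'⟩
        refine ⟨?_, h'⟩
        by_contra hcon
        push Not at hcon
        nlinarith
      · rintro ⟨h, h'⟩
        exact ⟨by positivity, h'⟩
    rw [h1]
    simp only [inner_split_orth e v hve]
    have h2 := real_Ico_zero_le (α / ‖y‖) (by positivity)
    simp only [integral_const, smul_eq_mul, measureReal_restrict_apply_univ, add_zero,
      probReal_univ, one_mul]
    apply mul_le_mul_of_nonneg_right _ (by positivity)
    refine h2.trans (le_of_eq (by ring))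

end Vale.Agent.P226
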