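import Mathlib
import Vale.Agent.P226.Flux

open MeasureTheory ProbabilityTheory Set
open scoped RealInnerProductSpace ENNReal NNReal

set_option linter.unusedSectionVars false

namespace Vale.Agent.P226

variable {E : Type*} [NormedAddCommGroup E] [InnerProductSpace ℝ E] [FiniteDimensional ℝ E]
  [MeasurableSpace E] [BorelSpace E] {ι : Type*} [Fintype ι] [DecidableEq ι]

/-- the properties of an optimal nondegenerate configuration -/
structure Opt (u : ι → E) : Prop where
  neg : ∀ i j, i ≠ j → ⟪u i, u j⟫ < 0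
  sum : ∑ i, u i = 0
  mom : ∀ i, firstMoment (cone u i) = u i
  prob : ∑ i, (stdGaussian E).real (cone u i) = 1

variable [Nontrivial ι] {u : ι → E}

lemma Opt.ne_zero (h : Opt u) (i : ι) : u i ≠ 0 := by
  obtain ⟨j, hj⟩ := exists_ne i
  intro h0
  have := h.neg i j hj.symm
  rw [h0, inner_zero_left] at this
  exact lt_irrefl _ this

lemma Opt.norm_pos (h : Opt u) (i : ι) : 0 < ‖u i‖ := norm_pos_iff.mpr (h.ne_zero i)

/-- unit vector of the cell -/
noncomputable def dir (u : ι → E) (i : ι) : E := (‖u i‖⁻¹ : ℝ) • u i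

lemma Opt.norm_dir (h : Opt u) (i : ι) : ‖dir u i‖ = 1 := by
  unfold dir
  rw [norm_smul, norm_inv, norm_norm, inv_mul_cancel₀ (h.norm_pos i).ne']

lemma Opt.norm_smul_dir (h : Opt u) (i : ι) : ‖u i‖ • dir u i = u i := by
  unfold dir
  rw [smul_smul, mul_inv_cancel₀ (h.norm_pos i).ne', one_smul]

lemma Opt.inner_eq (h : Opt u) (i : ι) (x : E) : ⟪u i, x⟫ = ‖u i‖ * ⟪dir u i, x⟫ := by
  conv_lhs => rw [← h.norm_smul_dir i]
  rw [inner_smul_left]; simp

lemma Opt.cone_nonneg (h : Opt u) {i : ι} {x : E} (hx : x ∈ cone u i) : 0 ≤ ⟪u i, x⟫ := by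
  have h1 : 0 ≤ ⟪∑ l, (u i - u l), x⟫ := by
    rw [sum_inner]
    exact Finset.sum_nonneg (fun l _ => hx l)
  rw [sum_sub_eq h.sum, inner_smul_left] at h1
  have h2 : (0 : ℝ) < Fintype.card ι := by exact_mod_cast Fintype.card_pos
  simp only [RCLike.conj_to_real] at h1
  by_contra hcon
  push Not at hcon
  nlinarith

lemma Opt.cone_dir_nonneg (h : Opt u) {i : ι} {x : E} (hx : x ∈ cone u i) :
    0 ≤ ⟪dir u i, x⟫ := by
  have h1 := h.cone_nonneg hx
  rw [h.inner_eq i] at h1
  have h2 := h.norm_pos i
  by_contra hcon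
  push Not at hcon
  nlinarith

lemma Opt.c_pos (h : Opt u) {i l : ι} (hl : l ≠ i) : 0 < ⟪u i - u l, dir u i⟫ := by
  unfold dir
  rw [inner_smul_right, inner_sub_left, real_inner_self_eq_norm_sq]
  have h1 := h.neg l i hl
  have h2 := h.norm_pos i
  have : 0 < ‖u i‖ ^ 2 - ⟪u l, u i⟫ := by nlinarith
  positivity

lemma Opt.c_eq (h : Opt u) {i l : ι} :
    ‖u i‖ * ⟪u i - u l, dir u i⟫ = ‖u i‖ ^ 2 + (-⟪u i, u l⟫) := by
  unfold dir
  have h2 := (h.norm_pos i).ne'
  rw [inner_smul_right, inner_sub_left, real_inner_self_eq_norm_sq, real_inner_comm (u i) (u l)]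
  field_simp
  ring

/-- the section of the cone cell in its axis direction is a half line starting at `N ≥ 0` -/
lemma Opt.section (h : Opt u) (i : ι) (x : E) :
    ∃ N : ℝ, 0 ≤ N ∧ (∀ s, split (dir u i) (s, x) ∈ cone u i ↔ N ≤ s) ∧
      ∃ j, j ≠ i ∧ ∀ s, ⟪u i - u j, split (dir u i) (s, x)⟫ =
        ⟪u i - u j, dir u i⟫ * (s - N) := by
  set e := dir u i with he_def
  have he : ‖e‖ = 1 := h.norm_dir i
  set p : E := x - ⟪e, x⟫ • e with hp
  have hpe : ⟪u i, p⟫ = 0 := by
    rw [h.inner_eq i, hp, inner_sub_right, inner_smul_right, ← he_def,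
      real_inner_self_eq_norm_sq, he]
    ring
  have ht : ∑ l, ⟪u i - u l, p⟫ = 0 := by
    rw [← sum_inner, sum_sub_eq h.sum, inner_smul_left, hpe, mul_zero]
  obtain ⟨j0, hj0⟩ := exists_ne i
  obtain ⟨j, hjmem, hjmax⟩ := Finset.exists_max_image (Finset.univ.erase i)
    (fun l => -⟪u i - u l, p⟫ / ⟪u i - u l, e⟫) ⟨j0, by simp [hj0]⟩
  have hji : j ≠ i := Finset.ne_of_mem_erase hjmem
  set N : ℝ := -⟪u i - u j, p⟫ / ⟪u i - u j, e⟫ with hN
  have hcj := h.c_pos hji
  rw [← he_def] at hcj
  have hN0 : 0 ≤ N := by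
    by_contra hcon
    push Not at hcon
    have h1 : ∀ l ∈ Finset.univ.erase i, 0 < ⟪u i - u l, p⟫ := by
      intro l hl
      have h2 := hjmax l hl
      have h3 := h.c_pos (Finset.ne_of_mem_erase hl)
      rw [← he_def] at h3
      have h4 : -⟪u i - u l, p⟫ / ⟪u i - u l, e⟫ < 0 := lt_of_le_of_lt h2 hcon
      rw [div_neg_iff] at h4
      rcases h4 with h4 | h4
      · linarith [h4.2]
      · linarith [h4.1]
    rw [← Finset.add_sum_erase Finset.univ _ (Finset.mem_univ i)] at ht
    have h5 : 0 < ∑ l ∈ Finset.univ.erase i, ⟪u i - u l, p⟫ :=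
      Finset.sum_pos h1 ⟨j0, by simp [hj0]⟩
    simp only [sub_self, inner_zero_left, zero_add] at ht
    linarith
  refine ⟨N, hN0, ?_, j, hji, ?_⟩
  · intro s
    unfold cone
    simp only [Set.mem_ofPred_eq, inner_split']
    rw [← hp]
    constructor
    · intro hs
      have h1 := hs j
      rw [hN, div_le_iff₀ hcj]
      linarith
    · intro hs l
      by_cases hl : l = i
      · subst hl; simp
      · have h2 := hjmax l (by simp [hl])
        have h3 := h.c_pos hl
        rw [← he_def] at h3
        have h4 : -⟪u i - u l, p⟫ / ⟪u i - u l, e⟫ ≤ s := h2.trans hs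
        rw [div_le_iff₀ h3] at h4
        linarith
  · intro s
    rw [inner_split', ← hp, hN]
    field_simp
    ring

lemma Opt.norm_eq (h : Opt u) (i : ι) :
    ‖u i‖ = ∫ x in cone u i, ⟪dir u i, x⟫ ∂(stdGaussian E) := by
  rw [← inner_firstMoment, h.mom i]
  unfold dir
  rw [inner_smul_left, real_inner_self_eq_norm_sq]
  have := (h.norm_pos i).ne'
  simp only [RCLike.conj_to_real]
  field_simp

/-- slice-wise comparison for functions of the axis coordinate on the cone cell -/
lemma Opt.compare (h : Opt u) (i : ι) {f g : ℝ → ℝ}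
    (hf : Integrable (fun x => f ⟪dir u i, x⟫) (stdGaussian E))
    (hg : Integrable (fun x => g ⟪dir u i, x⟫) (stdGaussian E))
    (hfg : ∀ N, 0 ≤ N → ∫ s in Ici N, f s ∂(gaussianReal 0 1) ≤
      ∫ s in Ici N, g s ∂(gaussianReal 0 1)) :
    ∫ x in cone u i, f ⟪dir u i, x⟫ ∂(stdGaussian E) ≤
      ∫ x in cone u i, g ⟪dir u i, x⟫ ∂(stdGaussian E) := by
  have hm := measurableSet_cone u i
  rw [← integral_indicator hm, ← integral_indicator hm]
  have h0 := integral_le_of_split (dir u i) (h.norm_dir i) (hf.indicator hm) (hg.indicator hm) 0 ?_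
  · simpa using h0
  · intro x
    rw [slice_integral _ _ hm, slice_integral _ _ hm]
    obtain ⟨N, hN, hs, _⟩ := h.section i x
    have h1 : {s | split (dir u i) (s, x) ∈ cone u i} = Ici N := by
      ext s; simp only [Set.mem_ofPred_eq, hs, mem_Ici]
    rw [h1]
    simp only [inner_split_self _ (h.norm_dir i), add_zero]
    exact hfg N hN

lemma Opt.prob_le (h : Opt u) (i : ι) :
    Real.sqrt (2 / Real.pi) * (stdGaussian E).real (cone u i) ≤ ‖u i‖ := by
  have h0 := h.compare i (f := fun _ => Real.sqrt (2 / Real.pi)) (g := fun s => s)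
    (integrable_const _) (integrable_inner _) ?_
  · rw [← h.norm_eq i] at h0
    simpa [mul_comm] using h0
  · intro N hN
    rw [integral_Ici_id]
    have := tail_one N hN
    simpa [mul_comm] using this

lemma Opt.norm_le_sq (h : Opt u) (i : ι) :
    ‖u i‖ ≤ Real.sqrt (2 / Real.pi) * ∫ x in cone u i, ⟪dir u i, x⟫ ^ 2 ∂(stdGaussian E) := by
  have h0 := h.compare i (f := fun s => s) (g := fun s => Real.sqrt (2 / Real.pi) * s ^ 2)
    (integrable_inner _) ((integrable_pow_inner _ 2).const_mul _) ?_
  · rw [← h.norm_eq i, integral_const_mul] at h0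
    exact h0
  · intro N hN
    rw [integral_Ici_id, integral_const_mul]
    exact tail_two N hN

lemma Opt.norm_le_phi (h : Opt u) (i : ι) : ‖u i‖ ≤ phi 0 := by
  rw [h.norm_eq i]
  have h1 := integral_le_of_split (dir u i) (h.norm_dir i)
    ((integrable_inner (dir u i)).indicator (measurableSet_cone u i))
    (integrable_const (0 : ℝ)) (phi 0) ?_
  · rw [integral_indicator (measurableSet_cone u i)] at h1
    simpa using h1
  · intro x
    rw [slice_integral _ _ (measurableSet_cone u i)]
    obtain ⟨N, hN, hs, _⟩ := h.section i x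
    have h1 : {s | split (dir u i) (s, x) ∈ cone u i} = Ici N := by
      ext s; simp only [Set.mem_ofPred_eq, hs, mem_Ici]
    rw [h1]
    simp only [inner_split_self _ (h.norm_dir i), integral_Ici_id]
    simpa using phi_le_zero N

/-- level two mass of the cell -/
noncomputable def lev (u : ι → E) (i : ι) : ℝ :=
  ∫ x in cone u i, (⟪dir u i, x⟫ ^ 2 - 1) ∂(stdGaussian E)

lemma lev_eq (u : ι → E) (i : ι) :
    ∫ x in cone u i, ⟪dir u i, x⟫ ^ 2 ∂(stdGaussian E) =
      (stdGaussian E).real (cone u i) + lev u i := by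
  unfold lev
  rw [integral_sub (integrable_pow_inner _ 2).integrableOn (integrable_const _).integrableOn]
  simp

/-- the level two mass is controlled by the mass near the facets -/
lemma Opt.lev_le (h : Opt u) (i : ι) (δ : ℝ) (hδ : 0 ≤ δ) :
    δ * lev u i ≤ (∑ l ∈ Finset.univ.erase i,
      ∫ x in slab u i l (δ * ⟪u i - u l, dir u i⟫), ⟪dir u i, x⟫ ∂(stdGaussian E)) + δ ^ 2 := by
  have he := h.norm_dir i
  set e := dir u i with he_def
  have hmc := measurableSet_cone u i
  have hms : ∀ l, MeasurableSet (slab u i l (δ * ⟪u i - u l, e⟫)) :=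
    fun l => measurableSet_slab u i l _
  have hf : Integrable ((cone u i).indicator (fun x => δ * (⟪e, x⟫ ^ 2 - 1))) (stdGaussian E) :=
    (((integrable_pow_inner e 2).sub (integrable_const 1)).const_mul δ).indicator hmc
  have hg : Integrable (fun x => ∑ l ∈ Finset.univ.erase i,
      (slab u i l (δ * ⟪u i - u l, e⟫)).indicator (fun x => ⟪e, x⟫) x) (stdGaussian E) :=
    integrable_finsetSum _ (fun l _ => (integrable_inner e).indicator (hms l))
  have h0 := integral_le_of_split e he hf hg (δ ^ 2) ?_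
  · rw [integral_indicator hmc, integral_const_mul, integral_finsetSum _
      (fun l _ => (integrable_inner e).indicator (hms l))] at h0
    unfold lev
    rw [← he_def]
    refine h0.trans (le_of_eq ?_)
    congr 1
    apply Finset.sum_congr rfl
    intro l _
    rw [integral_indicator (hms l)]
  · intro x
    obtain ⟨N, hN, hs, j, hji, hj⟩ := h.section i x
    rw [← he_def] at hs hj
    have hmeas : Measurable (fun s : ℝ => split e (s, x)) :=
      (measurable_split e).comp (measurable_id.prodMk measurable_const)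
    have h1 : {s | split e (s, x) ∈ cone u i} = Ici N := by
      ext s; simp only [Set.mem_ofPred_eq, hs, mem_Ici]
    rw [slice_integral e _ hmc, h1]
    simp only [inner_split_self e he]
    rw [integral_const_mul, integral_Ici_sq_sub_one]
    have hsl : ∀ l, ∫ s, (slab u i l (δ * ⟪u i - u l, e⟫)).indicator (fun x => ⟪e, x⟫)
        (split e (s, x)) ∂(gaussianReal 0 1) =
        ∫ s in {s | split e (s, x) ∈ slab u i l (δ * ⟪u i - u l, e⟫)}, s
          ∂(gaussianReal 0 1) := by
      intro l
      rw [slice_integral e _ (hms l)]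
      simp only [inner_split_self e he]
    have hid : Integrable (fun s : ℝ => s) (gaussianReal 0 1) := by
      simpa using integrable_pow_gauss 1
    have hint : ∀ l, Integrable (fun s => (slab u i l (δ * ⟪u i - u l, e⟫)).indicator
        (fun x => ⟪e, x⟫) (split e (s, x))) (gaussianReal 0 1) := by
      intro l
      have : (fun s => (slab u i l (δ * ⟪u i - u l, e⟫)).indicator
          (fun x => ⟪e, x⟫) (split e (s, x))) =
          ({s | split e (s, x) ∈ slab u i l (δ * ⟪u i - u l, e⟫)}).indicator (fun s => s) := by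
        ext s
        simp only [Set.indicator, Set.mem_ofPred_eq, inner_split_self e he]
      rw [this]
      exact hid.indicator (hmeas (hms l))
    rw [integral_finsetSum _ (fun l _ => hint l)]
    simp_rw [hsl]
    have hnn : ∀ l, 0 ≤ ∫ s in {s | split e (s, x) ∈ slab u i l (δ * ⟪u i - u l, e⟫)}, s
          ∂(gaussianReal 0 1) := by
      intro l
      apply setIntegral_nonneg (hmeas (hms l))
      intro s hs'
      have h2 := (hs s).mp hs'.1
      linarith
    have hjle : ∫ s in Ico N (N + δ), s ∂(gaussianReal 0 1) ≤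
        ∫ s in {s | split e (s, x) ∈ slab u i j (δ * ⟪u i - u j, e⟫)}, s
          ∂(gaussianReal 0 1) := by
      apply setIntegral_mono_set hid.integrableOn
      · apply (ae_restrict_iff' (hmeas (hms j))).mpr
        filter_upwards with s hs'
        have h2 := (hs s).mp hs'.1
        show (0 : ℝ) ≤ s
        linarith
      · apply Filter.Eventually.of_forall
        intro s hs'
        refine ⟨(hs s).mpr hs'.1, ?_⟩
        rw [hj s]
        have h2 := h.c_pos hji
        rw [← he_def] at h2
        have h3 : s - N < δ := by linarith [hs'.2]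
        nlinarith
    have hsum := Finset.single_le_sum (f := fun l =>
      ∫ s in {s | split e (s, x) ∈ slab u i l (δ * ⟪u i - u l, e⟫)}, s ∂(gaussianReal 0 1))
      (fun l _ => hnn l) (Finset.mem_erase.mpr ⟨hji, Finset.mem_univ j⟩)
    have h5 := mul_phi_le N δ hδ
    linarith

end Vale.Agent.P226
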