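import Mathlib
import Vale.Agent.P226.Cell

open MeasureTheory ProbabilityTheory Set
open scoped RealInnerProductSpace ENNReal NNReal

set_option linter.unusedSectionVars false

namespace Vale.Agent.P226

variable {E : Type*} [NormedAddCommGroup E] [InnerProductSpace ℝ E] [FiniteDimensional ℝ E]
  [MeasurableSpace E] [BorelSpace E] {ι : Type*} [Fintype ι] [DecidableEq ι] [Nontrivial ι]
  {u : ι → E}

lemma young_eight (V l : ℝ) (hl : 0 < l) : V ≤ (7 * l + V ^ 8 / l ^ 7) / 8 := by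
  have h1 : ∀ t : ℝ, 8 * t ≤ 7 + t ^ 8 := by
    intro t
    have a1 : 0 ≤ (t ^ 4 - 1) ^ 2 := sq_nonneg _
    have a2 : 0 ≤ (t ^ 2 - 1) ^ 2 := sq_nonneg _
    have a3 : 0 ≤ (t - 1) ^ 2 := sq_nonneg _
    nlinarith
  have h2 := h1 (V / l)
  have h3 : V ^ 8 / l ^ 7 = l * (V / l) ^ 8 := by field_simp
  rw [h3]
  have h4 : V = l * (V / l) := by field_simp
  nlinarith

/-- bound of the first moment of a slab -/
lemma Opt.slab_le (h : Opt u) {i j : ι} (hij : j ≠ i) {a : E}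
    (ha : ∀ l, ⟪u i - u l, a⟫ = if l = j then 1 else 0) (α l : ℝ) (hα : 0 ≤ α) (hl : 0 < l) :
    ∫ x in slab u i j α, ⟪u i, x⟫ ∂(stdGaussian E) ≤
      (α + 7 * l / 8) * (α / Fintype.card ι + ‖a‖ ^ 2 * α ^ 2) +
      1 / (8 * l ^ 7) * (α * phi 0 / ‖u i - u j‖ * (105 * ‖u j‖ ^ 8)) := by
  have hK : (0 : ℝ) < Fintype.card ι := by exact_mod_cast Fintype.card_pos
  set y := u i - u j with hy_def
  have hms := measurableSet_slab u i j α
  have hyne : y ≠ 0 := by
    intro h0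
    have := ha j
    rw [← hy_def, h0, inner_zero_left, if_pos rfl] at this
    exact zero_ne_one this
  have hyn : 0 < ‖y‖ := norm_pos_iff.mpr hyne
  have hmeas : (stdGaussian E).real (slab u i j α) ≤
      α / Fintype.card ι + ‖a‖ ^ 2 * α ^ 2 := by
    have h1 := slab_measure_le ha (1 / Fintype.card ι) ?_ α hα
    · refine h1.trans (le_of_eq (by ring))
    · rw [h.mom i, real_inner_comm]
      have := inner_dual h.sum ha
      field_simp
      linarith
  set β : ℝ := ⟪u i, y⟫ / ‖y‖ ^ 2 with hβ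
  set v : E := u i - β • y with hv
  have hneg := h.neg i j hij.symm
  have hiy : ⟪u i, y⟫ = ‖u i‖ ^ 2 - ⟪u i, u j⟫ := by
    rw [hy_def, inner_sub_right, real_inner_self_eq_norm_sq]
  have hyy : ‖y‖ ^ 2 = ‖u i‖ ^ 2 - 2 * ⟪u i, u j⟫ + ‖u j‖ ^ 2 := by
    rw [hy_def, norm_sub_sq_real]
  have hβ0 : 0 ≤ β := by
    rw [hβ]; apply div_nonneg _ (by positivity)
    rw [hiy]; nlinarith [sq_nonneg ‖u i‖]
  have hβ1 : β ≤ 1 := by
    rw [hβ, div_le_one (by positivity), hiy, hyy]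
    nlinarith [sq_nonneg ‖u j‖]
  have hvy : ⟪v, y⟫ = 0 := by
    rw [hv, inner_sub_left, inner_smul_left, real_inner_self_eq_norm_sq, hβ]
    simp only [RCLike.conj_to_real]
    field_simp
    ring
  have hvn : ‖v‖ ≤ ‖u j‖ := by
    have h1 : u j = v + (β - 1) • y := by
      rw [hv, sub_smul, one_smul, hy_def]; abel
    have h2 : ‖u j‖ ^ 2 = ‖v‖ ^ 2 + ‖(β - 1) • y‖ ^ 2 := by
      rw [h1, norm_add_sq_real, inner_smul_right, hvy]; ring
    have h3 : ‖v‖ ^ 2 ≤ ‖u j‖ ^ 2 := by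
      rw [h2]; nlinarith [sq_nonneg ‖(β - 1) • y‖]
    exact (pow_le_pow_iff_left₀ (norm_nonneg _) (norm_nonneg _) two_ne_zero).mp h3
  -- pointwise bound
  have hpt : ∀ x ∈ slab u i j α, ⟪u i, x⟫ ≤ (α + 7 * l / 8) + 1 / (8 * l ^ 7) * ⟪v, x⟫ ^ 8 := by
    intro x hx
    have h1 : 0 ≤ ⟪y, x⟫ := hx.1 j
    have h2 : ⟪y, x⟫ < α := hx.2
    have h3 : ⟪u i, x⟫ = β * ⟪y, x⟫ + ⟪v, x⟫ := by
      have h3' : ⟪v, x⟫ = ⟪u i, x⟫ - β * ⟪y, x⟫ := by
        rw [hv, inner_sub_left (u i) (β • y) x, inner_smul_left]; simp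
      rw [h3']; ring
    have h4 : β * ⟪y, x⟫ ≤ α := by nlinarith
    have h5 := young_eight ⟪v, x⟫ l hl
    have h6 : (7 * l + ⟪v, x⟫ ^ 8 / l ^ 7) / 8 = 7 * l / 8 + 1 / (8 * l ^ 7) * ⟪v, x⟫ ^ 8 := by
      field_simp
    rw [h6] at h5
    linarith
  have hI8 : Integrable (fun x => ⟪v, x⟫ ^ 8) (stdGaussian E) := integrable_pow_inner v 8
  calc ∫ x in slab u i j α, ⟪u i, x⟫ ∂(stdGaussian E)
      ≤ ∫ x in slab u i j α, ((α + 7 * l / 8) + 1 / (8 * l ^ 7) * ⟪v, x⟫ ^ 8)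
          ∂(stdGaussian E) := by
        apply setIntegral_mono_on (integrable_inner _).integrableOn
          ((integrable_const _).add (hI8.const_mul _)).integrableOn hms hpt
    _ = (α + 7 * l / 8) * (stdGaussian E).real (slab u i j α) +
          1 / (8 * l ^ 7) * ∫ x in slab u i j α, ⟪v, x⟫ ^ 8 ∂(stdGaussian E) := by
        rw [integral_add (integrable_const _).integrableOn (hI8.const_mul _).integrableOn,
          integral_const_mul]
        simp [mul_comm]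
    _ ≤ _ := by
        apply add_le_add
        · apply mul_le_mul_of_nonneg_left hmeas (by positivity)
        · apply mul_le_mul_of_nonneg_left _ (by positivity)
          have h1 : ∫ x in slab u i j α, ⟪v, x⟫ ^ 8 ∂(stdGaussian E) ≤
              ∫ x in {x : E | 0 ≤ ⟪y, x⟫ ∧ ⟪y, x⟫ < α}, ⟪v, x⟫ ^ 8 ∂(stdGaussian E) := by
            apply setIntegral_mono_set hI8.integrableOn
            · filter_upwards with x
              show (0 : ℝ) ≤ ⟪v, x⟫ ^ 8
              positivity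
            · apply Filter.Eventually.of_forall
              intro x hx
              exact ⟨hx.1 j, hx.2⟩
          refine h1.trans ((slab_moment_le hyne hvy α hα).trans ?_)
          apply mul_le_mul_of_nonneg_left _ (by have := phi_nonneg 0; positivity)
          have := pow_le_pow_left₀ (norm_nonneg v) hvn 8
          linarith

lemma le_of_small {a b C : ℝ} (h : ∀ δ : ℝ, 0 < δ → δ ≤ 1 → δ * a ≤ δ * b + δ ^ 2 * C) :
    a ≤ b := by
  by_contra hcon
  push Not at hcon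
  have hC : 0 < |C| + 1 := by positivity
  set δ := min 1 ((a - b) / (2 * (|C| + 1))) with hδ
  have hpos : 0 < (a - b) / (2 * (|C| + 1)) := by
    apply div_pos <;> linarith
  have hδ0 : 0 < δ := lt_min one_pos hpos
  have h1 := h δ hδ0 (min_le_left _ _)
  have h2 : δ ≤ (a - b) / (2 * (|C| + 1)) := min_le_right _ _
  have h3 : a ≤ b + δ * C := by
    have : δ * a ≤ δ * (b + δ * C) := by nlinarith
    exact le_of_mul_le_mul_left this hδ0
  have h4 : δ * C ≤ δ * (|C| + 1) :=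
    mul_le_mul_of_nonneg_left (by linarith [le_abs_self C]) hδ0.le
  rw [le_div_iff₀ (by linarith)] at h2
  nlinarith

/-- the level two mass of a cell, bounded through the facets -/
lemma Opt.lev_bound (h : Opt u) (i : ι) (L : ℝ) (hL : 0 < L) :
    ‖u i‖ * lev u i ≤ ∑ j ∈ Finset.univ.erase i, ⟪u i - u j, dir u i⟫ *
      (‖u j‖ * (7 * L / (8 * Fintype.card ι) + 105 * phi 0 / (8 * L ^ 7 * ‖u i - u j‖))) := by
  have hK : (0 : ℝ) < Fintype.card ι := by exact_mod_cast Fintype.card_pos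
  have hri := h.norm_pos i
  -- choose dual vectors
  have hdual : ∀ j, ∃ a : E, j ≠ i → ∀ l, ⟪u i - u l, a⟫ = if l = j then 1 else 0 := by
    intro j
    by_cases hj : j = i
    · exact ⟨0, fun h' => absurd hj h'⟩
    · obtain ⟨a, ha⟩ := exists_dual h.neg h.sum hj
      exact ⟨a, fun _ => ha⟩
  choose a ha using hdual
  set c : ι → ℝ := fun j => ⟪u i - u j, dir u i⟫ with hc
  apply le_of_small (C := ‖u i‖ + ∑ j ∈ Finset.univ.erase i, c j * (c j / Fintype.card ι
    + ‖a j‖ ^ 2 * c j * c j + 7 * (L * ‖u j‖) / 8 * ‖a j‖ ^ 2 * c j))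
  intro δ hδ hδ1
  have h1 := h.lev_le i δ hδ.le
  have h2 : ∀ j ∈ Finset.univ.erase i,
      ‖u i‖ * ∫ x in slab u i j (δ * c j), ⟪dir u i, x⟫ ∂(stdGaussian E) ≤
      δ * (c j * (‖u j‖ * (7 * L / (8 * Fintype.card ι) +
        105 * phi 0 / (8 * L ^ 7 * ‖u i - u j‖)))) +
      δ ^ 2 * (c j * (c j / Fintype.card ι
        + ‖a j‖ ^ 2 * c j * c j + 7 * (L * ‖u j‖) / 8 * ‖a j‖ ^ 2 * c j)) := by
    intro j hj
    have hji : j ≠ i := Finset.ne_of_mem_erase hj
    have hcj : 0 < c j := h.c_pos hji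
    have huj := h.norm_pos j
    have hyj : 0 < ‖u i - u j‖ := by
      rw [norm_pos_iff]
      intro h0
      have := ha j hji j
      rw [h0, inner_zero_left, if_pos rfl] at this
      exact zero_ne_one this
    have h3 := h.slab_le hji (ha j hji) (δ * c j) (L * ‖u j‖) (by positivity) (by positivity)
    have h4 : ‖u i‖ * ∫ x in slab u i j (δ * c j), ⟪dir u i, x⟫ ∂(stdGaussian E) =
        ∫ x in slab u i j (δ * c j), ⟪u i, x⟫ ∂(stdGaussian E) := by
      rw [← integral_const_mul]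
      congr 1
      ext x
      rw [h.inner_eq i]
    rw [h4]
    refine h3.trans ?_
    have h5 : 1 / (8 * (L * ‖u j‖) ^ 7) * (δ * c j * phi 0 / ‖u i - u j‖ * (105 * ‖u j‖ ^ 8)) =
        δ * (c j * (‖u j‖ * (105 * phi 0 / (8 * L ^ 7 * ‖u i - u j‖)))) := by
      field_simp
    rw [h5]
    have h6 : (δ * c j + 7 * (L * ‖u j‖) / 8) *
        (δ * c j / Fintype.card ι + ‖a j‖ ^ 2 * (δ * c j) ^ 2) =
        δ * (c j * (‖u j‖ * (7 * L / (8 * Fintype.card ι)))) +
        δ ^ 2 * (c j * (c j / Fintype.card ι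
        + ‖a j‖ ^ 2 * c j * (δ * c j) + 7 * (L * ‖u j‖) / 8 * ‖a j‖ ^ 2 * c j)) := by
      field_simp
      ring
    rw [h6]
    have h7 : ‖a j‖ ^ 2 * c j * (δ * c j) ≤ ‖a j‖ ^ 2 * c j * c j := by
      apply mul_le_mul_of_nonneg_left _ (by positivity)
      nlinarith
    have h8 : c j * (c j / Fintype.card ι + ‖a j‖ ^ 2 * c j * (δ * c j) +
        7 * (L * ‖u j‖) / 8 * ‖a j‖ ^ 2 * c j) ≤
        c j * (c j / Fintype.card ι + ‖a j‖ ^ 2 * c j * c j +
        7 * (L * ‖u j‖) / 8 * ‖a j‖ ^ 2 * c j) := by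
      apply mul_le_mul_of_nonneg_left _ hcj.le
      linarith
    have h9 := mul_le_mul_of_nonneg_left h8 (sq_nonneg δ)
    nlinarith
  have h3 := Finset.sum_le_sum h2
  rw [Finset.sum_add_distrib, ← Finset.mul_sum, ← Finset.mul_sum, ← Finset.mul_sum] at h3
  have h4 := mul_le_mul_of_nonneg_left h1 hri.le
  rw [mul_add] at h4
  have h5 : ‖u i‖ * (δ * lev u i) = δ * (‖u i‖ * lev u i) := by ring
  rw [h5] at h4
  refine h4.trans ?_
  rw [mul_add (δ ^ 2)]
  linarith

end Vale.Agent.P226
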