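import Mathlib
import Vale.Agent.P226.Part

open MeasureTheory ProbabilityTheory Set
open scoped RealInnerProductSpace ENNReal NNReal

set_option linter.unusedSectionVars false

namespace Vale.Agent.P226

variable {E : Type*} [NormedAddCommGroup E] [InnerProductSpace ℝ E] [FiniteDimensional ℝ E]
  [MeasurableSpace E] [BorelSpace E] {ι : Type*} [Fintype ι] [LinearOrder ι]

/-- Existence of an optimal family which reproduces itself as the family of first moments of its
argmax cells. -/
theorem exists_optimal (A₀ : ι → Set E) (hA₀ : IsPartition A₀) (hpos : 0 < momentSum A₀) :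
    ∃ u : ι → E, (∀ i, firstMoment (argCell u i) = u i) ∧ 0 < ∑ i, ‖u i‖ ^ 2 ∧
      ∀ A : ι → Set E, IsPartition A → momentSum A ≤ ∑ i, ‖u i‖ ^ 2 := by
  classical
  have hne : Nonempty ι := by
    by_contra h
    rw [not_nonempty_iff] at h
    unfold momentSum at hpos
    simp at hpos
  let K : Set (ι → E) := {w | ∑ i, ‖w i‖ ^ 2 = 1}
  have hKclosed : IsClosed K := isClosed_eq (by fun_prop) continuous_const
  have hKbdd : Bornology.IsBounded K := by
    rw [isBounded_iff_forall_norm_le]
    refine ⟨1, fun w hw => ?_⟩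
    rw [pi_norm_le_iff_of_nonneg zero_le_one]
    intro i
    have h1 : ‖w i‖ ^ 2 ≤ 1 := by
      rw [← (show ∑ i, ‖w i‖ ^ 2 = 1 from hw)]
      exact Finset.single_le_sum (f := fun i => ‖w i‖ ^ 2) (fun i _ => by positivity)
        (Finset.mem_univ i)
    nlinarith [norm_nonneg (w i)]
  have hKc : IsCompact K := Metric.isCompact_of_isClosed_isBounded hKclosed hKbdd
  -- normalisation of the moments of a partition
  have hnorm : ∀ A : ι → Set E, IsPartition A → 0 < momentSum A →
      (fun i => (Real.sqrt (momentSum A))⁻¹ • firstMoment (A i)) ∈ K ∧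
      momentSum A ≤ Real.sqrt (momentSum A) *
        Em (fun i => (Real.sqrt (momentSum A))⁻¹ • firstMoment (A i)) := by
    intro A hA hp
    have hs : 0 < Real.sqrt (momentSum A) := Real.sqrt_pos.mpr hp
    constructor
    · show ∑ i, ‖(Real.sqrt (momentSum A))⁻¹ • firstMoment (A i)‖ ^ 2 = 1
      have : ∀ i, ‖(Real.sqrt (momentSum A))⁻¹ • firstMoment (A i)‖ ^ 2 =
          (momentSum A)⁻¹ * ‖firstMoment (A i)‖ ^ 2 := by
        intro i
        rw [norm_smul, mul_pow, norm_inv, Real.norm_eq_abs, abs_of_pos hs, inv_pow,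
          Real.sq_sqrt hp.le]
      simp_rw [this]
      rw [← Finset.mul_sum]
      exact inv_mul_cancel₀ hp.ne'
    · rw [Em_smul _ _ (inv_nonneg.mpr hs.le), ← mul_assoc, mul_inv_cancel₀ hs.ne', one_mul]
      exact momentSum_le_Em hA
  obtain ⟨w, hwK, hwmax⟩ := hKc.exists_isMaxOn ⟨_, (hnorm A₀ hA₀ hpos).1⟩
    (continuous_Em (E := E) (ι := ι)).continuousOn
  set m := Em w with hm
  have hbound : ∀ A : ι → Set E, IsPartition A → momentSum A ≤ m ^ 2 ∨ momentSum A = 0 := by
    intro A hA
    rcases (momentSum_nonneg A).eq_or_lt with h | h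
    · right; exact h.symm
    · left
      obtain ⟨h1, h2⟩ := hnorm A hA h
      have h3 := hwmax h1
      simp only [Set.mem_ofPred_eq] at h3
      have hs : 0 < Real.sqrt (momentSum A) := Real.sqrt_pos.mpr h
      have h4 : Real.sqrt (momentSum A) * Real.sqrt (momentSum A) = momentSum A :=
        Real.mul_self_sqrt h.le
      have h5 : Real.sqrt (momentSum A) * Real.sqrt (momentSum A) ≤
          Real.sqrt (momentSum A) * m := by
        rw [h4]
        exact h2.trans (mul_le_mul_of_nonneg_left h3 hs.le)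
      have h6 : Real.sqrt (momentSum A) ≤ m := le_of_mul_le_mul_left h5 hs
      nlinarith
  have hmpos : 0 < m := by
    obtain ⟨h1, h2⟩ := hnorm A₀ hA₀ hpos
    have h3 := hwmax h1
    simp only [Set.mem_ofPred_eq] at h3
    have hs : 0 < Real.sqrt (momentSum A₀) := Real.sqrt_pos.mpr hpos
    have h4 : 0 < Em (fun i => (Real.sqrt (momentSum A₀))⁻¹ • firstMoment (A₀ i)) := by
      by_contra hcon
      push Not at hcon
      nlinarith
    exact lt_of_lt_of_le h4 h3
  have hbound' : ∀ A : ι → Set E, IsPartition A → momentSum A ≤ m ^ 2 := by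
    intro A hA
    rcases hbound A hA with h | h
    · exact h
    · rw [h]; positivity
  -- the argmax cells of the maximiser
  have hz : ∀ i, firstMoment (argCell w i) = m • w i := by
    have h1 : ∑ i, ⟪w i, firstMoment (argCell w i)⟫ = m := sum_inner_argCell w
    have h2 : momentSum (argCell w) ≤ m ^ 2 := hbound' _ (isPartition_argCell w)
    have h3 : ∑ i, ‖firstMoment (argCell w i) - m • w i‖ ^ 2 ≤ 0 := by
      have h4 : ∀ i, ‖firstMoment (argCell w i) - m • w i‖ ^ 2 =
          ‖firstMoment (argCell w i)‖ ^ 2 - 2 * m * ⟪w i, firstMoment (argCell w i)⟫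
            + m ^ 2 * ‖w i‖ ^ 2 := by
        intro i
        rw [norm_sub_sq_real, inner_smul_right, norm_smul, mul_pow, Real.norm_eq_abs, sq_abs,
          real_inner_comm]
        ring
      simp_rw [h4]
      rw [Finset.sum_add_distrib, Finset.sum_sub_distrib, ← Finset.mul_sum, ← Finset.mul_sum, h1,
        (show ∑ i, ‖w i‖ ^ 2 = 1 from hwK)]
      unfold momentSum at h2
      linarith
    have h5 : ∀ i ∈ Finset.univ, ‖firstMoment (argCell w i) - m • w i‖ ^ 2 = 0 := by
      rw [← Finset.sum_eq_zero_iff_of_nonneg (fun i _ => by positivity)]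
      exact le_antisymm h3 (Finset.sum_nonneg (fun i _ => by positivity))
    intro i
    have h6 := h5 i (Finset.mem_univ i)
    have h7 : ‖firstMoment (argCell w i) - m • w i‖ = 0 := by
      simpa using h6
    rwa [norm_eq_zero, sub_eq_zero] at h7
  have hsum : ∑ i, ‖m • w i‖ ^ 2 = m ^ 2 := by
    have : ∀ i, ‖m • w i‖ ^ 2 = m ^ 2 * ‖w i‖ ^ 2 := by
      intro i
      rw [norm_smul, mul_pow, Real.norm_eq_abs, sq_abs]
    simp_rw [this]
    rw [← Finset.mul_sum, (show ∑ i, ‖w i‖ ^ 2 = 1 from hwK), mul_one]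
  refine ⟨fun i => m • w i, ?_, ?_, ?_⟩
  · intro i
    rw [argCell_smul w m hmpos]
    exact hz i
  · rw [hsum]; positivity
  · intro A hA
    rw [hsum]
    exact hbound' A hA

end Vale.Agent.P226
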