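import Mathlib
import Vale.Agent.P226.Part

open MeasureTheory ProbabilityTheory Set
open scoped RealInnerProductSpace ENNReal NNReal

set_option linter.unusedSectionVars false

namespace Vale.Agent.P226

variable {E : Type*} [NormedAddCommGroup E] [InnerProductSpace ℝ E] [FiniteDimensional ℝ E]
  [MeasurableSpace E] [BorelSpace E]

lemma firstMoment_empty : firstMoment (∅ : Set E) = 0 := by
  unfold firstMoment; simp

lemma firstMoment_union {S T : Set E} (hT : MeasurableSet T) (h : Disjoint S T) :
    firstMoment (S ∪ T) = firstMoment S + firstMoment T := by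
  unfold firstMoment
  exact setIntegral_union h hT integrable_idE.integrableOn integrable_idE.integrableOn

section

variable {ι : Type*} [Fintype ι] [DecidableEq ι]

lemma isPartition_merge {A : ι → Set E} (hA : IsPartition A) {i j : ι} (hij : i ≠ j) :
    IsPartition (Function.update (Function.update A i (A i ∪ A j)) j ∅) := by
  obtain ⟨hm, hd, hu⟩ := hA
  refine ⟨?_, ?_, ?_⟩
  · intro l
    by_cases hl : l = j
    · subst hl; simp
    · rw [Function.update_of_ne hl]
      by_cases hl2 : l = i
      · subst hl2
        rw [Function.update_self]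
        exact (hm _).union (hm _)
      · rw [Function.update_of_ne hl2]; exact hm l
  · intro a b hab
    by_cases ha : a = j
    · subst ha; simp
    by_cases hb : b = j
    · subst hb; simp
    rw [Function.update_of_ne ha, Function.update_of_ne hb]
    by_cases ha2 : a = i
    · subst ha2
      rw [Function.update_self, Function.update_of_ne hab.symm]
      exact Disjoint.union_left (hd hab) (hd (Ne.symm hb))
    · by_cases hb2 : b = i
      · subst hb2
        rw [Function.update_self, Function.update_of_ne hab]
        exact Disjoint.union_right (hd hab) (hd ha)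
      · rw [Function.update_of_ne ha2, Function.update_of_ne hb2]
        exact hd hab
  · rw [Set.eq_univ_iff_forall]
    intro x
    have hx : x ∈ ⋃ i, A i := by rw [hu]; trivial
    rw [Set.mem_iUnion] at hx ⊢
    obtain ⟨l, hl⟩ := hx
    by_cases hlj : l = j
    · refine ⟨i, ?_⟩
      rw [Function.update_of_ne hij, Function.update_self]
      right; rw [← hlj]; exact hl
    · by_cases hli : l = i
      · refine ⟨i, ?_⟩
        rw [Function.update_of_ne hij, Function.update_self]
        left; rw [← hli]; exact hl
      · refine ⟨l, ?_⟩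
        rw [Function.update_of_ne hlj, Function.update_of_ne hli]
        exact hl

lemma momentSum_merge {A : ι → Set E} (hA : IsPartition A) {i j : ι} (hij : i ≠ j) :
    momentSum (Function.update (Function.update A i (A i ∪ A j)) j ∅) =
      momentSum A + 2 * ⟪firstMoment (A i), firstMoment (A j)⟫ := by
  unfold momentSum
  have hji : j ∈ Finset.univ.erase i := Finset.mem_erase.mpr ⟨hij.symm, Finset.mem_univ _⟩
  rw [← Finset.add_sum_erase Finset.univ _ (Finset.mem_univ i),
    ← Finset.add_sum_erase _ _ hji,
    ← Finset.add_sum_erase Finset.univ (fun i => ‖firstMoment (A i)‖ ^ 2) (Finset.mem_univ i),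
    ← Finset.add_sum_erase _ (fun i => ‖firstMoment (A i)‖ ^ 2) hji]
  have h1 : ∀ l ∈ (Finset.univ.erase i).erase j,
      ‖firstMoment (Function.update (Function.update A i (A i ∪ A j)) j ∅ l)‖ ^ 2 =
        ‖firstMoment (A l)‖ ^ 2 := by
    intro l hl
    rw [Finset.mem_erase, Finset.mem_erase] at hl
    rw [Function.update_of_ne hl.1, Function.update_of_ne hl.2.1]
  rw [Finset.sum_congr rfl h1]
  simp only [Function.update_self, Function.update_of_ne hij, firstMoment_empty]
  rw [firstMoment_union (hA.1 j) (hA.2.1 hij), norm_add_sq_real]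
  simp
  ring

end

lemma isPartition_drop {k : ℕ} {A : Fin (k + 1) → Set E} (hA : IsPartition A) {j : Fin (k + 1)}
    (hj : A j = ∅) : IsPartition (fun l : Fin k => A (j.succAbove l)) := by
  obtain ⟨hm, hd, hu⟩ := hA
  refine ⟨fun l => hm _, fun a b hab => hd (fun h => hab (Fin.succAbove_right_injective h)), ?_⟩
  rw [Set.eq_univ_iff_forall]
  intro x
  have hx : x ∈ ⋃ i, A i := by rw [hu]; trivial
  rw [Set.mem_iUnion] at hx ⊢
  obtain ⟨l, hl⟩ := hx
  by_cases hlj : l = j
  · rw [hlj, hj] at hl; exact absurd hl (Set.notMem_empty x)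
  · obtain ⟨l', hl'⟩ := Fin.exists_succAbove_eq hlj
    exact ⟨l', by rw [hl']; exact hl⟩

lemma momentSum_drop {k : ℕ} {A : Fin (k + 1) → Set E} {j : Fin (k + 1)}
    (hj : A j = ∅) : momentSum (fun l : Fin k => A (j.succAbove l)) = momentSum A := by
  unfold momentSum
  rw [Fin.sum_univ_succAbove _ j, hj, firstMoment_empty]
  simp

/-- every partition of `E` into `k` cells has moment sum at most `C` -/
def Bd (E : Type*) [NormedAddCommGroup E] [InnerProductSpace ℝ E] [FiniteDimensional ℝ E]
    [MeasurableSpace E] [BorelSpace E] (C : ℝ) (k : ℕ) : Prop :=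
  ∀ A : Fin k → Set E, IsPartition A → momentSum A ≤ C

lemma Bd.inner_neg {C : ℝ} {k : ℕ} (h : Bd E C k) {A : Fin (k + 1) → Set E}
    (hA : IsPartition A) (hC : C < momentSum A) {i j : Fin (k + 1)} (hij : i ≠ j) :
    ⟪firstMoment (A i), firstMoment (A j)⟫ < 0 := by
  by_contra hcon
  push Not at hcon
  have h1 := h _ (isPartition_drop (isPartition_merge hA hij) (j := j) (by simp))
  rw [momentSum_drop (by simp), momentSum_merge hA hij] at h1
  linarith

/-- adding empty cells: a bound for `k + 1` cells gives a bound for `k` cells (`k ≥ 1`) -/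
lemma Bd.pred {C : ℝ} {k : ℕ} (h : Bd E C (k + 1)) : Bd E C k := by
  intro A hA
  by_cases hk : k = 0
  · subst hk
    exfalso
    have h1 := hA.2.2
    rw [Set.eq_univ_iff_forall] at h1
    have := h1 0
    rw [Set.mem_iUnion] at this
    obtain ⟨i, _⟩ := this
    exact i.elim0
  · have h1 := h (Fin.cons ∅ A) ?_
    · refine le_trans (le_of_eq ?_) h1
      unfold momentSum
      rw [Fin.sum_univ_succ]
      simp [firstMoment_empty]
    · obtain ⟨hm, hd, hu⟩ := hA
      refine ⟨?_, ?_, ?_⟩
      · intro i
        refine Fin.cases ?_ (fun i => ?_) i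
        · simp
        · simpa using hm i
      · intro a b
        refine Fin.cases ?_ (fun a => ?_) a
        · intro _; simp
        · refine Fin.cases ?_ (fun b => ?_) b
          · intro _; simp
          · intro hab
            simpa using hd (fun h => hab (by rw [h]))
      · rw [Set.eq_univ_iff_forall]
        intro x
        have hx : x ∈ ⋃ i, A i := by rw [hu]; trivial
        rw [Set.mem_iUnion] at hx ⊢
        obtain ⟨l, hl⟩ := hx
        exact ⟨l.succ, by simpa using hl⟩

lemma Bd.mono {C : ℝ} {k l : ℕ} (hkl : k ≤ l) (h : Bd E C l) : Bd E C k := by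
  induction hkl with
  | refl => exact h
  | step _ ih => exact ih h.pred

end Vale.Agent.P226
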