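import Mathlib
import Vale.Agent.P226.Bound
import Vale.Agent.P226.Maxi
import Vale.Agent.P226.Merge

open MeasureTheory ProbabilityTheory Set
open scoped RealInnerProductSpace ENNReal NNReal

set_option linter.unusedSectionVars false

namespace Vale.Agent.P226

variable {E : Type*} [NormedAddCommGroup E] [InnerProductSpace ℝ E] [FiniteDimensional ℝ E]
  [MeasurableSpace E] [BorelSpace E]

section

variable {ι : Type*} [Fintype ι] [DecidableEq ι] [Nontrivial ι] {u : ι → E}

lemma Opt.half_bound (h : Opt u) (i : ι) (n : ℕ) (m : ℝ)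
    (hm : ∫ s in Ioi (0 : ℝ), phi s * s ^ n = m) (hn : Even n) :
    ∫ x in cone u i, ⟪dir u i, x⟫ ^ n ∂(stdGaussian E) ≤ m := by
  rw [← hm, ← half_moment_inner (dir u i) (h.norm_dir i) n]
  apply setIntegral_mono_set (integrable_pow_inner _ n).integrableOn
  · filter_upwards with x
    exact hn.pow_nonneg _
  · apply Filter.Eventually.of_forall
    intro x hx
    exact h.cone_dir_nonneg hx

lemma Opt.norm_le_young (h : Opt u) (i : ι) (l : ℝ) (hl : 0 < l) :
    ‖u i‖ ≤ (7 * l * (stdGaussian E).real (cone u i) + (105 / 2) / l ^ 7) / 8 := by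
  have h8 := h.half_bound i 8 (105 / 2) half_moments.2.2 (by decide)
  have hm := measurableSet_cone u i
  have hI8 : Integrable (fun x => ⟪dir u i, x⟫ ^ 8) (stdGaussian E) := integrable_pow_inner _ 8
  rw [h.norm_eq i]
  calc ∫ x in cone u i, ⟪dir u i, x⟫ ∂(stdGaussian E)
      ≤ ∫ x in cone u i, (7 * l / 8 + (1 / (8 * l ^ 7)) * ⟪dir u i, x⟫ ^ 8)
          ∂(stdGaussian E) := by
        apply setIntegral_mono_on (integrable_inner _).integrableOn
          ((integrable_const _).add (hI8.const_mul _)).integrableOn hm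
        intro x _
        have h5 := young_eight ⟪dir u i, x⟫ l hl
        have h6 : (7 * l + ⟪dir u i, x⟫ ^ 8 / l ^ 7) / 8 =
            7 * l / 8 + 1 / (8 * l ^ 7) * ⟪dir u i, x⟫ ^ 8 := by
          field_simp
        rw [h6] at h5
        exact h5
    _ = 7 * l / 8 * (stdGaussian E).real (cone u i) +
          1 / (8 * l ^ 7) * ∫ x in cone u i, ⟪dir u i, x⟫ ^ 8 ∂(stdGaussian E) := by
        rw [integral_add (integrable_const _).integrableOn (hI8.const_mul _).integrableOn,
          integral_const_mul]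
        simp [mul_comm]
    _ ≤ 7 * l / 8 * (stdGaussian E).real (cone u i) + 1 / (8 * l ^ 7) * (105 / 2) := by
        have : (0 : ℝ) ≤ 1 / (8 * l ^ 7) := by positivity
        have := mul_le_mul_of_nonneg_left h8 this
        linarith
    _ = _ := by field_simp

lemma Opt.sum_norm_le (h : Opt u) (l : ℝ) (hl : 0 < l) :
    ∑ i, ‖u i‖ ≤ (7 * l + Fintype.card ι * (105 / 2) / l ^ 7) / 8 := by
  calc ∑ i, ‖u i‖ ≤ ∑ i, (7 * l * (stdGaussian E).real (cone u i) + (105 / 2) / l ^ 7) / 8 :=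
        Finset.sum_le_sum (fun i _ => h.norm_le_young i l hl)
    _ = _ := by
        rw [← Finset.sum_div, Finset.sum_add_distrib, ← Finset.mul_sum, h.prob, Finset.sum_const,
          Finset.card_univ, nsmul_eq_mul]
        ring

lemma phi_zero_sq : phi 0 ^ 2 = 1 / (2 * Real.pi) := by
  rw [phi_zero, inv_pow, Real.sq_sqrt (by have := Real.pi_pos; positivity)]
  simp

lemma sqrt_two_div_pi_eq : Real.sqrt (2 / Real.pi) = 2 * phi 0 := by
  have := sqrt_two_div_pi_mul; linarith

lemma phi_zero_le : phi 0 ≤ 2 / 5 := by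
  rw [phi_zero, inv_le_comm₀ sqrt_two_pi_pos (by norm_num)]
  apply Real.le_sqrt_of_sq_le
  nlinarith [Real.pi_gt_d2]

/-- general cell bound -/
lemma Opt.sq_le (h : Opt u) (i : ι) :
    ‖u i‖ ^ 2 ≤ ((stdGaussian E).real (cone u i) + lev u i) / Real.pi := by
  have h1 := h.norm_le_phi i
  have h2 := h.norm_le_sq i
  rw [lev_eq, sqrt_two_div_pi_eq] at h2
  have h3 := h.norm_pos i
  have h4 := phi_pos 0
  have h5 : 0 ≤ (stdGaussian E).real (cone u i) + lev u i := by
    by_contra hcon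
    push Not at hcon
    have : 2 * phi 0 * ((stdGaussian E).real (cone u i) + lev u i) < 0 :=
      mul_neg_of_pos_of_neg (by positivity) hcon
    linarith
  have h6 : ‖u i‖ ^ 2 ≤ 2 * phi 0 ^ 2 * ((stdGaussian E).real (cone u i) + lev u i) := by
    calc ‖u i‖ ^ 2 = ‖u i‖ * ‖u i‖ := by ring
      _ ≤ phi 0 * (2 * phi 0 * ((stdGaussian E).real (cone u i) + lev u i)) :=
          mul_le_mul h1 h2 h3.le h4.le
      _ = _ := by ring
  rw [phi_zero_sq] at h6
  refine h6.trans (le_of_eq ?_)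
  have := Real.pi_pos
  field_simp

/-- bound for cells of small mass -/
lemma Opt.sq_le_small (h : Opt u) (i : ι) (hp : (stdGaussian E).real (cone u i) ≤ 1 / 15) :
    ‖u i‖ ^ 2 ≤ (stdGaussian E).real (cone u i) / Real.pi := by
  set p := (stdGaussian E).real (cone u i) with hp_def
  have hp0 : 0 ≤ p := measureReal_nonneg
  set S := ∫ x in cone u i, ⟪dir u i, x⟫ ^ 2 ∂(stdGaussian E) with hS
  have hm := measurableSet_cone u i
  have h4 := h.half_bound i 4 (3 / 2) half_moments.2.1 (by decide)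
  have hI1 := integrable_inner (dir u i)
  have hI2 : Integrable (fun x => ⟪dir u i, x⟫ ^ 2) (stdGaussian E) := integrable_pow_inner _ 2
  have hI4 : Integrable (fun x => ⟪dir u i, x⟫ ^ 4) (stdGaussian E) := integrable_pow_inner _ 4
  have hSb : S ≤ 237 / 100 * p + 50 / 474 * (3 / 2) := by
    calc S ≤ ∫ x in cone u i, (237 / 100 + 50 / 474 * ⟪dir u i, x⟫ ^ 4) ∂(stdGaussian E) := by
          apply setIntegral_mono_on hI2.integrableOn
            ((integrable_const _).add (hI4.const_mul _)).integrableOn hm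
          intro x _
          show ⟪dir u i, x⟫ ^ 2 ≤ 237 / 100 + 50 / 474 * ⟪dir u i, x⟫ ^ 4
          nlinarith [sq_nonneg (⟪dir u i, x⟫ ^ 2 - 474 / 100)]
      _ = 237 / 100 * p + 50 / 474 * ∫ x in cone u i, ⟪dir u i, x⟫ ^ 4 ∂(stdGaussian E) := by
          rw [integral_add (integrable_const _).integrableOn (hI4.const_mul _).integrableOn,
            integral_const_mul]
          simp [mul_comm, hp_def]
      _ ≤ _ := by linarith
  have hcs : ∀ t : ℝ, 0 ≤ S - 2 * t * ‖u i‖ + t ^ 2 * p := by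
    intro t
    have h1 : 0 ≤ ∫ x in cone u i, (⟪dir u i, x⟫ - t) ^ 2 ∂(stdGaussian E) :=
      setIntegral_nonneg hm (fun x _ => sq_nonneg _)
    have h2 : ∫ x in cone u i, (⟪dir u i, x⟫ - t) ^ 2 ∂(stdGaussian E) =
        S - 2 * t * ‖u i‖ + t ^ 2 * p := by
      have h3 : ∀ x : E, (⟪dir u i, x⟫ - t) ^ 2 =
          (⟪dir u i, x⟫ ^ 2 - 2 * t * ⟪dir u i, x⟫) + t ^ 2 := by intro x; ring
      simp_rw [h3]
      have hI12 : Integrable (fun x => ⟪dir u i, x⟫ ^ 2 - 2 * t * ⟪dir u i, x⟫)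
          (stdGaussian E) := hI2.sub (hI1.const_mul _)
      rw [integral_add hI12.integrableOn (integrable_const _).integrableOn,
        integral_sub hI2.integrableOn (hI1.const_mul _).integrableOn, integral_const_mul,
        ← h.norm_eq i]
      simp [mul_comm, hp_def, hS]
    rw [← h2]; exact h1
  have hr := h.norm_pos i
  have hppos : 0 < p := by
    rcases hp0.lt_or_eq with h1 | h1
    · exact h1
    · exfalso
      rw [← h1] at hcs
      have h2 := hcs ((S + 1) / ‖u i‖)
      have h3 : 2 * ((S + 1) / ‖u i‖) * ‖u i‖ = 2 * (S + 1) := by field_simp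
      rw [h3] at h2
      have hS0 : 0 ≤ S := setIntegral_nonneg hm (fun x _ => sq_nonneg _)
      linarith
  have h5 := hcs (‖u i‖ / p)
  have h6 : S - 2 * (‖u i‖ / p) * ‖u i‖ + (‖u i‖ / p) ^ 2 * p = S - ‖u i‖ ^ 2 / p := by
    field_simp; ring
  rw [h6] at h5
  have h7 : ‖u i‖ ^ 2 ≤ S * p := by
    have : ‖u i‖ ^ 2 / p ≤ S := by linarith
    rwa [div_le_iff₀ hppos] at this
  have h8 : S ≤ 1 / Real.pi := by
    have h9 : (0.3183 : ℝ) ≤ 1 / Real.pi := by
      rw [le_div_iff₀ Real.pi_pos]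
      nlinarith [Real.pi_lt_d4]
    nlinarith
  calc ‖u i‖ ^ 2 ≤ S * p := h7
    _ ≤ 1 / Real.pi * p := mul_le_mul_of_nonneg_right h8 hp0
    _ = p / Real.pi := by ring

/-- level two mass bound for large cells when there are many cells -/
lemma Opt.lev_small (h : Opt u) (hK : 4000 ≤ Fintype.card ι) (i : ι)
    (hp : 1 / 15 < (stdGaussian E).real (cone u i)) : lev u i ≤ 1 / 112 := by
  set K : ℝ := (Fintype.card ι : ℝ) with hK_def
  have hK' : (4000 : ℝ) ≤ K := by rw [hK_def]; exact_mod_cast hK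
  obtain ⟨κ, hκ0, hκ⟩ : ∃ κ : ℝ, 0 < κ ∧ κ ^ 8 = K := by
    refine ⟨K ^ (1 / 8 : ℝ), by positivity, ?_⟩
    rw [← Real.rpow_natCast, ← Real.rpow_mul (by positivity)]
    norm_num
  have hκ1 : 282 / 100 ≤ κ := by
    by_contra hcon
    push Not at hcon
    have h1 : κ ^ 8 ≤ (282 / 100) ^ 8 := pow_le_pow_left₀ hκ0.le hcon.le 8
    rw [hκ] at h1
    have h2 : ((282 : ℝ) / 100) ^ 8 < 4000 := by norm_num
    linarith
  have hr := h.norm_pos i
  have hphi := phi_pos 0
  have hrp : phi 0 / ‖u i‖ ≤ 15 / 2 := by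
    have h1 := h.prob_le i
    rw [sqrt_two_div_pi_eq] at h1
    rw [div_le_iff₀ hr]
    nlinarith
  have hb := h.lev_bound i (23 / 10 * κ) (by positivity)
  rw [← hK_def] at hb
  set Bc : ℝ := 2302 / 1000 / κ ^ 7 with hBc
  have hBc0 : 0 < Bc := by positivity
  have h1 : ∀ j ∈ Finset.univ.erase i, ⟪u i - u j, dir u i⟫ *
      (‖u j‖ * (7 * (23 / 10 * κ) / (8 * K) +
        105 * phi 0 / (8 * (23 / 10 * κ) ^ 7 * ‖u i - u j‖))) ≤
      ⟪u i - u j, dir u i⟫ * (‖u j‖ * Bc) := by
    intro j hj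
    have hji := Finset.ne_of_mem_erase hj
    have hc := h.c_pos hji
    have huj := h.norm_pos j
    have hneg := h.neg i j hji.symm
    have hy : ‖u i‖ ≤ ‖u i - u j‖ := by
      apply (pow_le_pow_iff_left₀ (norm_nonneg _) (norm_nonneg _) two_ne_zero).mp
      rw [norm_sub_sq_real]
      nlinarith [sq_nonneg ‖u j‖]
    have h2 : 105 * phi 0 / (8 * (23 / 10 * κ) ^ 7 * ‖u i - u j‖) ≤
        105 / (8 * (23 / 10 * κ) ^ 7) * (15 / 2) := by
      have h3 : phi 0 / ‖u i - u j‖ ≤ 15 / 2 :=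
        (div_le_div_of_nonneg_left hphi.le hr hy).trans hrp
      have h4 : 105 * phi 0 / (8 * (23 / 10 * κ) ^ 7 * ‖u i - u j‖) =
          105 / (8 * (23 / 10 * κ) ^ 7) * (phi 0 / ‖u i - u j‖) := by
        rw [div_mul_div_comm]
      rw [h4]
      exact mul_le_mul_of_nonneg_left h3 (by positivity)
    have h5 : 7 * (23 / 10 * κ) / (8 * K) + 105 / (8 * (23 / 10 * κ) ^ 7) * (15 / 2) ≤ Bc := by
      rw [hBc, ← hκ]
      have h6 : 7 * (23 / 10 * κ) / (8 * κ ^ 8) + 105 / (8 * (23 / 10 * κ) ^ 7) * (15 / 2) =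
          (7 * (23 / 10) / 8 + 105 / (8 * (23 / 10) ^ 7) * (15 / 2)) / κ ^ 7 := by
        field_simp
      rw [h6]
      apply div_le_div_of_nonneg_right _ (by positivity)
      norm_num
    apply mul_le_mul_of_nonneg_left _ hc.le
    apply mul_le_mul_of_nonneg_left _ huj.le
    linarith
  have h2 := hb.trans (Finset.sum_le_sum h1)
  -- multiply by the norm of u i
  have h3 : ‖u i‖ * (‖u i‖ * lev u i) ≤
      Bc * (‖u i‖ ^ 2 * (∑ j, ‖u j‖ + phi 0)) := by
    have h4 := mul_le_mul_of_nonneg_left h2 hr.le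
    refine h4.trans ?_
    rw [Finset.mul_sum]
    have h5 : ∀ j ∈ Finset.univ.erase i, ‖u i‖ * (⟪u i - u j, dir u i⟫ * (‖u j‖ * Bc)) ≤
        Bc * (‖u i‖ ^ 2 * ‖u j‖) + Bc * (phi 0 * (-⟪u i, u j⟫)) := by
      intro j hj
      have hji := Finset.ne_of_mem_erase hj
      have hneg := h.neg i j hji.symm
      have h6 : ‖u i‖ * (⟪u i - u j, dir u i⟫ * (‖u j‖ * Bc)) =
          (‖u i‖ * ⟪u i - u j, dir u i⟫) * (‖u j‖ * Bc) := by ring
      rw [h6, h.c_eq]
      have h7 := h.norm_le_phi j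
      have h8 : (-⟪u i, u j⟫) * ‖u j‖ ≤ (-⟪u i, u j⟫) * phi 0 :=
        mul_le_mul_of_nonneg_left h7 (by linarith)
      nlinarith
    refine (Finset.sum_le_sum h5).trans ?_
    rw [Finset.sum_add_distrib, ← Finset.mul_sum, ← Finset.mul_sum, ← Finset.mul_sum,
      ← Finset.mul_sum, sum_inner_erase h.sum i]
    have h9 : ∑ j ∈ Finset.univ.erase i, ‖u j‖ ≤ ∑ j, ‖u j‖ :=
      Finset.sum_le_sum_of_subset_of_nonneg (Finset.erase_subset _ _)
        (fun j _ _ => norm_nonneg _)
    have h10 : Bc * (‖u i‖ ^ 2 * ∑ j ∈ Finset.univ.erase i, ‖u j‖) ≤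
        Bc * (‖u i‖ ^ 2 * ∑ j, ‖u j‖) := by
      apply mul_le_mul_of_nonneg_left _ hBc0.le
      exact mul_le_mul_of_nonneg_left h9 (sq_nonneg _)
    nlinarith
  have h4 : lev u i ≤ Bc * (∑ j, ‖u j‖ + phi 0) := by
    have h5 : ‖u i‖ ^ 2 * lev u i ≤ ‖u i‖ ^ 2 * (Bc * (∑ j, ‖u j‖ + phi 0)) := by nlinarith
    exact le_of_mul_le_mul_left h5 (by positivity)
  have h5 := h.sum_norm_le (41 / 25 * κ) (by positivity)
  rw [← hK_def, ← hκ] at h5
  have h6 : (7 * (41 / 25 * κ) + κ ^ 8 * (105 / 2) / (41 / 25 * κ) ^ 7) / 8 ≤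
      1641 / 1000 * κ := by
    have h7 : (7 * (41 / 25 * κ) + κ ^ 8 * (105 / 2) / (41 / 25 * κ) ^ 7) / 8 =
        (7 * (41 / 25) + (105 / 2) / (41 / 25) ^ 7) / 8 * κ := by
      field_simp
    rw [h7]
    apply mul_le_mul_of_nonneg_right _ hκ0.le
    norm_num
  have h7 : ∑ j, ‖u j‖ + phi 0 ≤ 1641 / 1000 * κ + 2 / 5 := by
    have := phi_zero_le
    linarith
  have h8 : lev u i ≤ Bc * (1641 / 1000 * κ + 2 / 5) :=
    h4.trans (mul_le_mul_of_nonneg_left h7 hBc0.le)
  refine h8.trans ?_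
  rw [hBc, div_mul_eq_mul_div, div_le_iff₀ (by positivity)]
  have h9 : (502 : ℝ) ≤ κ ^ 6 := by
    have : ((282 : ℝ) / 100) ^ 6 ≤ κ ^ 6 := pow_le_pow_left₀ (by norm_num) hκ1 6
    refine le_trans (by norm_num) this
  have h10 : κ * 502 ≤ κ ^ 7 := by
    have : κ ^ 7 = κ * κ ^ 6 := by ring
    rw [this]
    exact mul_le_mul_of_nonneg_left h9 hκ0.le
  nlinarith

theorem Opt.final (h : Opt u) (hK : 4000 ≤ Fintype.card ι) :
    ∑ i, ‖u i‖ ^ 2 ≤ 9 / (8 * Real.pi) := by
  have hpi := Real.pi_pos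
  let big : Finset ι := Finset.univ.filter (fun i => 1 / 15 < (stdGaussian E).real (cone u i))
  have hcard : (big.card : ℝ) ≤ 14 := by
    have h2 : big.card < 15 := by
      by_contra hcon
      push Not at hcon
      have h3 : (15 : ℝ) ≤ big.card := by exact_mod_cast hcon
      -- equality case
      have h4 : (big.card : ℝ) * (1 / 15) < 1 := by
        calc (big.card : ℝ) * (1 / 15) = ∑ i ∈ big, (1 / 15 : ℝ) := by
              rw [Finset.sum_const, nsmul_eq_mul]
          _ < ∑ i ∈ big, (stdGaussian E).real (cone u i) := by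
              apply Finset.sum_lt_sum_of_nonempty
              · rw [← Finset.card_pos]; omega
              · intro i hi
                exact (Finset.mem_filter.mp hi).2
          _ ≤ ∑ i, (stdGaussian E).real (cone u i) :=
              Finset.sum_le_sum_of_subset_of_nonneg (Finset.subset_univ _)
              (fun i _ _ => measureReal_nonneg)
          _ = 1 := h.prob
      linarith
    have h3 : big.card ≤ 14 := by omega
    exact_mod_cast h3
  have hcell : ∀ i, ‖u i‖ ^ 2 ≤ (stdGaussian E).real (cone u i) / Real.pi +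
      (if i ∈ big then 1 / (112 * Real.pi) else 0) := by
    intro i
    by_cases hi : i ∈ big
    · rw [if_pos hi]
      have h1 := h.lev_small hK i (Finset.mem_filter.mp hi).2
      have h2 := h.sq_le i
      rw [add_div] at h2
      have h3 : lev u i / Real.pi ≤ 1 / (112 * Real.pi) := by
        have : 1 / (112 * Real.pi) = (1 / 112) / Real.pi := by field_simp
        rw [this]
        exact div_le_div_of_nonneg_right h1 hpi.le
      linarith
    · rw [if_neg hi, add_zero]
      apply h.sq_le_small i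
      by_contra hcon
      push Not at hcon
      exact hi (Finset.mem_filter.mpr ⟨Finset.mem_univ _, hcon⟩)
  calc ∑ i, ‖u i‖ ^ 2 ≤ ∑ i, ((stdGaussian E).real (cone u i) / Real.pi +
      (if i ∈ big then 1 / (112 * Real.pi) else 0)) := Finset.sum_le_sum (fun i _ => hcell i)
    _ = 1 / Real.pi + big.card * (1 / (112 * Real.pi)) := by
        rw [Finset.sum_add_distrib, ← Finset.sum_div, h.prob, Finset.sum_ite_mem,
          Finset.univ_inter, Finset.sum_const, nsmul_eq_mul]
    _ ≤ 1 / Real.pi + 14 * (1 / (112 * Real.pi)) := by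
        have : (0 : ℝ) ≤ 1 / (112 * Real.pi) := by positivity
        nlinarith
    _ = 9 / (8 * Real.pi) := by field_simp; norm_num

end

/-- the induction step: from `k ≥ 3999` cells to `k + 1` cells -/
theorem Bd.step {C : ℝ} (hC : 9 / (8 * Real.pi) ≤ C) {k : ℕ} (hk : 4000 ≤ k + 1)
    (h : Bd E C k) : Bd E C (k + 1) := by
  intro A hA
  by_contra hcon
  push Not at hcon
  have hC0 : 0 < C := lt_of_lt_of_le (by have := Real.pi_pos; positivity) hC
  obtain ⟨u, hu, _, hmax⟩ := exists_optimal A hA (hC0.trans hcon)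
  have hbig : C < ∑ i, ‖u i‖ ^ 2 := lt_of_lt_of_le hcon (hmax A hA)
  have hms : momentSum (argCell u) = ∑ i, ‖u i‖ ^ 2 := by
    unfold momentSum
    simp_rw [hu]
  have hpart := isPartition_argCell u
  have hneg : ∀ i j, i ≠ j → ⟪u i, u j⟫ < 0 := by
    intro i j hij
    have h1 := h.inner_neg hpart (by rw [hms]; exact hbig) hij
    rwa [hu i, hu j] at h1
  have hsum : ∑ i, u i = 0 := by
    have := sum_firstMoment hpart
    simpa [hu] using this
  have hne : ∀ i l, l ≠ i → u i - u l ≠ 0 := by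
    intro i l hl h0
    rw [sub_eq_zero] at h0
    have h1 := hneg i l hl.symm
    rw [h0, real_inner_self_eq_norm_sq] at h1
    exact absurd h1 (not_lt.mpr (sq_nonneg _))
  have : Nontrivial (Fin (k + 1)) := by
    rw [Fin.nontrivial_iff_two_le]; omega
  have hopt : Opt u := by
    refine ⟨hneg, hsum, ?_, ?_⟩
    · intro i
      rw [firstMoment_cone (fun l hl => hne i l hl), hu i]
    · have h1 : ∀ i, (stdGaussian E).real (cone u i) = (stdGaussian E).real (argCell u i) := by
        intro i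
        exact (measureReal_congr (cone_ae_eq (fun l hl => hne i l hl))).symm
      simp_rw [h1]
      have h2 := sum_setIntegral hpart (integrable_const (1 : ℝ))
      simpa using h2
  have hfin := hopt.final (by rw [Fintype.card_fin]; exact hk)
  linarith

theorem Bd.all {C : ℝ} (hC : 9 / (8 * Real.pi) ≤ C) (h : Bd E C 4000) (k : ℕ) : Bd E C k := by
  by_cases hk : k ≤ 4000
  · exact h.mono hk
  · push Not at hk
    obtain ⟨m, rfl⟩ := Nat.exists_eq_add_of_lt hk
    clear hk
    induction m with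
    | zero => exact Bd.step hC (by norm_num) h
    | succ m ih => exact Bd.step hC (by omega) ih

end Vale.Agent.P226
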