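import Mathlib
import Vale.Agent.P226.Assemble

open MeasureTheory ProbabilityTheory Set
open scoped RealInnerProductSpace ENNReal NNReal

set_option linter.unusedSectionVars false

namespace Vale.Agent.P226

variable {E : Type*} [NormedAddCommGroup E] [InnerProductSpace ℝ E] [FiniteDimensional ℝ E]
  [MeasurableSpace E] [BorelSpace E]
  {E' : Type*} [NormedAddCommGroup E'] [InnerProductSpace ℝ E'] [FiniteDimensional ℝ E']
  [MeasurableSpace E'] [BorelSpace E']
  {ι : Type*} [Fintype ι]

/-- the vector of the linear functionals -/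
noncomputable def vec (w : ι → E) (x : E) : EuclideanSpace ℝ ι :=
  WithLp.toLp 2 (fun i => ⟪w i, x⟫)

lemma continuous_vec (w : ι → E) : Continuous (vec w) := by
  unfold vec; fun_prop

lemma inner_vec (w : ι → E) (x : E) (t : EuclideanSpace ℝ ι) :
    ⟪vec w x, t⟫ = ⟪x, ∑ i, t i • w i⟫ := by
  unfold vec
  rw [PiLp.inner_apply, inner_sum]
  apply Finset.sum_congr rfl
  intro i _
  rw [inner_smul_right, real_inner_comm (w i) x]
  simp

lemma norm_sum_eq {w : ι → E} {w' : ι → E'} (hG : ∀ i j, ⟪w i, w j⟫ = ⟪w' i, w' j⟫)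
    (t : ι → ℝ) : ‖∑ i, t i • w i‖ = ‖∑ i, t i • w' i‖ := by
  have h : ‖∑ i, t i • w i‖ ^ 2 = ‖∑ i, t i • w' i‖ ^ 2 := by
    rw [← real_inner_self_eq_norm_sq, ← real_inner_self_eq_norm_sq]
    simp only [sum_inner, inner_sum, inner_smul_left, inner_smul_right, hG]
  exact (pow_left_inj₀ (norm_nonneg _) (norm_nonneg _) two_ne_zero).mp h

lemma law_eq {w : ι → E} {w' : ι → E'} (hG : ∀ i j, ⟪w i, w j⟫ = ⟪w' i, w' j⟫) :
    (stdGaussian E).map (vec w) = (stdGaussian E').map (vec w') := by
  have h1 : IsProbabilityMeasure ((stdGaussian E).map (vec w)) :=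
    Measure.isProbabilityMeasure_map (continuous_vec w).aemeasurable
  have h2 : IsProbabilityMeasure ((stdGaussian E').map (vec w')) :=
    Measure.isProbabilityMeasure_map (continuous_vec w').aemeasurable
  apply Measure.ext_of_charFun
  ext t
  rw [charFun_apply, charFun_apply, integral_map (continuous_vec w).aemeasurable (by fun_prop),
    integral_map (continuous_vec w').aemeasurable (by fun_prop)]
  simp_rw [inner_vec]
  rw [← charFun_apply, ← charFun_apply, charFun_stdGaussian, charFun_stdGaussian,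
    norm_sum_eq hG]

lemma Em_congr [Nonempty ι] {w : ι → E} {w' : ι → E'}
    (hG : ∀ i j, ⟪w i, w j⟫ = ⟪w' i, w' j⟫) : Em w = Em w' := by
  have hc : Continuous (fun y : EuclideanSpace ℝ ι =>
      Finset.univ.sup' Finset.univ_nonempty (fun i => y i)) := by
    apply Continuous.finset_sup'_apply
    intro i _
    fun_prop
  have key : ∀ {F : Type _} [NormedAddCommGroup F] [InnerProductSpace ℝ F]
      [FiniteDimensional ℝ F] [MeasurableSpace F] [BorelSpace F] (v : ι → F),
      Em v = ∫ y, (Finset.univ.sup' Finset.univ_nonempty (fun i => y i))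
        ∂((stdGaussian F).map (vec v)) := by
    intro F _ _ _ _ _ v
    rw [integral_map (continuous_vec v).aemeasurable hc.aestronglyMeasurable]
    rfl
  have key' : ∀ {F : Type _} [NormedAddCommGroup F] [InnerProductSpace ℝ F]
      [FiniteDimensional ℝ F] [MeasurableSpace F] [BorelSpace F] (v : ι → F),
      Em v = ∫ y, (Finset.univ.sup' Finset.univ_nonempty (fun i => y i))
        ∂((stdGaussian F).map (vec v)) := by
    intro F _ _ _ _ _ v
    rw [integral_map (continuous_vec v).aemeasurable hc.aestronglyMeasurable]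
    rfl
  rw [key w, key' w', law_eq hG]

/-- vectors spanning a space of dimension at most `m` can be copied into `ℝ^m` -/
lemma exists_copy (w : ι → E) (m : ℕ)
    (hm : Module.finrank ℝ (Submodule.span ℝ (Set.range w)) ≤ m) :
    ∃ w' : ι → EuclideanSpace ℝ (Fin m), ∀ i j, ⟪w i, w j⟫ = ⟪w' i, w' j⟫ := by
  set V := Submodule.span ℝ (Set.range w) with hV
  have hw : ∀ i, w i ∈ V := fun i => Submodule.subset_span (Set.mem_range_self i)
  let b := stdOrthonormalBasis ℝ V
  let v : Fin (Module.finrank ℝ V) → EuclideanSpace ℝ (Fin m) :=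
    fun l => EuclideanSpace.basisFun (Fin m) ℝ (Fin.castLE hm l)
  have hv : Orthonormal ℝ v :=
    (EuclideanSpace.basisFun (Fin m) ℝ).orthonormal.comp _ (Fin.castLE_injective hm)
  refine ⟨fun i => ∑ l, ⟪b l, (⟨w i, hw i⟩ : V)⟫ • v l, fun i j => ?_⟩
  rw [hv.inner_sum]
  have h1 := b.sum_inner_mul_inner (⟨w i, hw i⟩ : V) ⟨w j, hw j⟩
  have h2 : ⟪(⟨w i, hw i⟩ : V), ⟨w j, hw j⟩⟫ = ⟪w i, w j⟫ := rfl
  rw [← h2, ← h1]
  apply Finset.sum_congr rfl
  intro l _
  rw [real_inner_comm]
  simp

theorem Bd.of_dim {C : ℝ} {K m : ℕ} (hKm : K ≤ m) (h : Bd (EuclideanSpace ℝ (Fin m)) C (K + 1)) :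
    Bd E C (K + 1) := by
  intro A hA
  set z : Fin (K + 1) → E := fun i => firstMoment (A i) with hz
  have hsum : ∑ i, z i = 0 := sum_firstMoment hA
  have hrank : Module.finrank ℝ (Submodule.span ℝ (Set.range z)) ≤ m := by
    have h1 : Submodule.span ℝ (Set.range z) ≤
        Submodule.span ℝ (Set.range (fun i : Fin K => z i.succ)) := by
      rw [Submodule.span_le]
      rintro _ ⟨i, rfl⟩
      refine Fin.cases ?_ (fun i => ?_) i
      · rw [Fin.sum_univ_succ] at hsum
        have : z 0 = -∑ i : Fin K, z i.succ := eq_neg_of_add_eq_zero_left hsum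
        rw [this]
        apply Submodule.neg_mem
        apply Submodule.sum_mem
        intro l _
        exact Submodule.subset_span ⟨l, rfl⟩
      · exact Submodule.subset_span ⟨i, rfl⟩
    have h2 := Submodule.finrank_mono h1
    have h3 := finrank_range_le_card (R := ℝ) (fun i : Fin K => z i.succ)
    rw [Fintype.card_fin] at h3
    exact (h2.trans h3).trans hKm
  obtain ⟨w, hw⟩ := exists_copy z m hrank
  have h1 : momentSum A ≤ Em z := momentSum_le_Em hA
  rw [Em_congr hw, ← sum_inner_argCell w] at h1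
  have h2 : momentSum (argCell w) ≤ C := h _ (isPartition_argCell w)
  have h3 : ∑ i, ⟪w i, firstMoment (argCell w i)⟫ ≤
      (momentSum A + momentSum (argCell w)) / 2 := by
    unfold momentSum
    rw [← Finset.sum_add_distrib, Finset.sum_div]
    apply Finset.sum_le_sum
    intro i _
    have h4 : ‖w i‖ ^ 2 = ‖firstMoment (A i)‖ ^ 2 := by
      rw [← real_inner_self_eq_norm_sq, ← real_inner_self_eq_norm_sq, ← hw i i]
    have h5 : 0 ≤ ‖w i - firstMoment (argCell w i)‖ ^ 2 := sq_nonneg _
    rw [norm_sub_sq_real] at h5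
    linarith
  linarith

end Vale.Agent.P226
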